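import Vale.Agent.P281.H702.HKT.PF
import Vale.Agent.P281.H83.HKT.Defs

/-!
# P281, project T-HKT (helper702): forms on the quotient of `ℂ^a × H` by translations of `ℂ^a`
-/

open Set Filter Metric Vale.Agent.P272.K
open scoped Topology ContDiff Manifold

noncomputable section

set_option maxSynthPendingDepth 3

namespace Vale.Agent.P281.H702.HKT

open Vale.Agent.P281.H64.TK (jac dd Sheets)
open Vale.Agent.P281.H83.HK (IsHol2 Hol2)
open Vale.Agent.P281.H83.HKT (Hol1)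
open Vale.Agent.P281.H702.HK (mf mf_apply mf_alt mf_analytic mf_fd mf_closed B2)
open Vale.Agent.P281.H702.Z

section
variable {d a h : ℕ} {M Γ H : Type} [TopologicalSpace M] [Group Γ] [MulAction Γ M]
  [TopologicalSpace H] [ChartedSpace (Cm h) H]

variable (h) in
/-- `Ψ : ℂ^a × H → M` is the quotient by a group of translations of `ℂ^a`, cocompact, and is a local
biholomorphism. -/
structure Cvr (S : Sheets d M Γ) (Ψ : Cm a × H → M) : Prop where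
  surj : Function.Surjective Ψ
  eqv : ∀ q q', Ψ q = Ψ q' → q'.2 = q.2 ∧ ∀ r : Cm a × H, Ψ (r.1 + (q'.1 - q.1), r.2) = Ψ r
  cpt : ∃ C : Set (Cm a), IsCompact C ∧
    ∀ z, ∃ l, (∀ r : Cm a × H, Ψ (r.1 + l, r.2) = Ψ r) ∧ z + l ∈ C
  loc : ∀ j, ∀ z ∈ ball (0 : Cm d) 3, ∀ q, Ψ q = S.σ j z → ∀ e ∈ atlas (Cm h) H,
    q.2 ∈ e.source → ∃ (κ : Cm d → Cm a × Cm h) (θ : Cm a × Cm h → Cm d),
      AnalyticAt ℂ κ z ∧ κ z = (q.1, e q.2) ∧ AnalyticAt ℂ θ (q.1, e q.2) ∧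
      θ (q.1, e q.2) = z ∧ (∀ᶠ v in 𝓝 z, Ψ ((κ v).1, e.symm (κ v).2) = S.σ j v) ∧
      ∀ᶠ r in 𝓝 (q.1, e q.2), Ψ (r.1, e.symm r.2) = S.σ j (θ r)

/-- The periods of `Ψ`. -/
def Per (Ψ : Cm a × H → M) : Set (Cm a) := {l | ∀ r : Cm a × H, Ψ (r.1 + l, r.2) = Ψ r}

variable {S : Sheets d M Γ} {Ψ : Cm a × H → M}

/-- A local lift of the sheet `j`. -/
structure Lift (S : Sheets d M Γ) (Ψ : Cm a × H → M) (j : Fin S.N) (z : Cm d) (e : Chart h H)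
    (κ : Cm d → Cm a × Cm h) : Prop where
  mem : e ∈ atlas (Cm h) H
  an : AnalyticAt ℂ κ z
  tgt : (κ z).2 ∈ e.target
  eq : ∀ᶠ v in 𝓝 z, Ψ ((κ v).1, e.symm (κ v).2) = S.σ j v

/-- The map `Ψ` in the chart `e` and the sheet `j`. -/
structure Sec (S : Sheets d M Γ) (Ψ : Cm a × H → M) (e : Chart h H) (r : Cm a × Cm h)
    (j : Fin S.N) (θ : Cm a × Cm h → Cm d) : Prop where
  mem : e ∈ atlas (Cm h) H
  tgt : r.2 ∈ e.target
  an : AnalyticAt ℂ θ r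
  bal : θ r ∈ ball (0 : Cm d) 3
  eq : ∀ᶠ r' in 𝓝 r, Ψ (r'.1, e.symm r'.2) = S.σ j (θ r')

theorem Lift.ev {j : Fin S.N} {z : Cm d} {e : Chart h H} {κ : Cm d → Cm a × Cm h}
    (hκ : Lift S Ψ j z e κ) : ∀ᶠ v in 𝓝 z, Lift S Ψ j v e κ := by
  have h1 : ∀ᶠ v in 𝓝 z, (κ v).2 ∈ e.target :=
    (hκ.an.continuousAt.snd).eventually (e.open_target.mem_nhds hκ.tgt)
  filter_upwards [hκ.an.eventually_analyticAt, h1, eventually_eventually_nhds.2 hκ.eq]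
    with v k1 k2 k3
  exact ⟨hκ.mem, k1, k2, k3⟩

theorem Sec.ev {e : Chart h H} {r : Cm a × Cm h} {j : Fin S.N} {θ : Cm a × Cm h → Cm d}
    (hθ : Sec S Ψ e r j θ) : ∀ᶠ r' in 𝓝 r, Sec S Ψ e r' j θ := by
  have h1 : ∀ᶠ r' : Cm a × Cm h in 𝓝 r, r'.2 ∈ e.target :=
    (continuous_snd.continuousAt).eventually (e.open_target.mem_nhds hθ.tgt)
  have h2 : ∀ᶠ r' in 𝓝 r, θ r' ∈ ball (0 : Cm d) 3 :=
    hθ.an.continuousAt.eventually (isOpen_ball.mem_nhds hθ.bal)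
  filter_upwards [hθ.an.eventually_analyticAt, h1, h2, eventually_eventually_nhds.2 hθ.eq]
    with v k1 k2 k3 k4
  exact ⟨hθ.mem, k2, k1, k3, k4⟩

theorem exists_lift (hΨ : Cvr h S Ψ) (j : Fin S.N) {z : Cm d} (hz : z ∈ ball (0 : Cm d) 3) :
    ∃ (e : Chart h H) (κ : Cm d → Cm a × Cm h), Lift S Ψ j z e κ := by
  obtain ⟨q, hq⟩ := hΨ.surj (S.σ j z)
  obtain ⟨κ, θ, h1, h2, -, -, h5, -⟩ := hΨ.loc j z hz q hq (chartAt (Cm h) q.2)
    (chart_mem_atlas _ _) (mem_chart_source _ _)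
  refine ⟨chartAt (Cm h) q.2, κ, chart_mem_atlas _ _, h1, ?_, h5⟩
  rw [h2]
  exact (chartAt (Cm h) q.2).map_source (mem_chart_source _ _)

theorem exists_sec_at (hΨ : Cvr h S Ψ) {j : Fin S.N} {z : Cm d} (hz : z ∈ ball (0 : Cm d) 3)
    {e : Chart h H} {κ : Cm d → Cm a × Cm h} (hκ : Lift S Ψ j z e κ) :
    ∃ θ, Sec S Ψ e (κ z) j θ ∧ θ (κ z) = z := by
  obtain ⟨κ', θ, -, -, h3, h4, -, h6⟩ := hΨ.loc j z hz ((κ z).1, e.symm (κ z).2)
    hκ.eq.self_of_nhds e hκ.mem (e.map_target hκ.tgt)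
  simp only [e.right_inv hκ.tgt] at h3 h4 h6
  exact ⟨θ, ⟨hκ.mem, hκ.tgt, h3, by rw [h4]; exact hz, h6⟩, h4⟩

theorem exists_sec [Subsingleton Γ] (hΨ : Cvr h S Ψ) {e : Chart h H} (he : e ∈ atlas (Cm h) H)
    {r : Cm a × Cm h} (hr : r.2 ∈ e.target) : ∃ j θ, Sec S Ψ e r j θ := by
  obtain ⟨γ, j, z, hz, hσ⟩ := S.cover (Ψ (r.1, e.symm r.2))
  rw [Subsingleton.elim γ 1, one_smul] at hσ
  have hz' : z ∈ ball (0 : Cm d) 3 := by
    rw [mem_ball_zero_iff]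
    linarith
  obtain ⟨κ', θ, -, -, h3, h4, -, h6⟩ := hΨ.loc j z hz' (r.1, e.symm r.2) hσ.symm e he
    (e.map_target hr)
  simp only [e.right_inv hr] at h3 h4 h6
  exact ⟨j, θ, he, hr, h3, by rw [h4]; exact hz', h6⟩

theorem inj_of (hd : d = a + h) {L : Cm a × Cm h →L[ℂ] Cm d} {K : Cm d →L[ℂ] Cm a × Cm h}
    (hLK : ∀ v, L (K v) = v) : Function.Injective L ∧ Function.Surjective K := by
  have h1 : Function.Injective L := by
    have h2 : Function.Surjective L := fun v => ⟨K v, hLK v⟩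
    have h3 : Module.finrank ℂ (Cm a × Cm h) = Module.finrank ℂ (Cm d) := by
      simp [hd]
    exact (LinearMap.injective_iff_surjective_of_finrank_eq_finrank (f := L.toLinearMap) h3).2 h2
  refine ⟨h1, fun y => ⟨L y, h1 ?_⟩⟩
  rw [hLK]

/-- A section is a left inverse of a lift. -/
theorem sec_lift {j : Fin S.N} {z : Cm d} (hz : z ∈ ball (0 : Cm d) 3) {e : Chart h H}
    {κ : Cm d → Cm a × Cm h} (hκ : Lift S Ψ j z e κ) {θ : Cm a × Cm h → Cm d}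
    (hθ : Sec S Ψ e (κ z) j θ) : ∀ᶠ v in 𝓝 z, θ (κ v) = v := by
  filter_upwards [hκ.an.continuousAt.eventually hθ.ev, hκ.eq, isOpen_ball.mem_nhds hz]
    with v k1 k2 k3
  refine (S.inj j _ k1.bal v k3 1 ?_).2
  rw [one_smul, ← k1.eq.self_of_nhds, k2]

theorem sec_lift_fd {j : Fin S.N} {z : Cm d} (hz : z ∈ ball (0 : Cm d) 3) {e : Chart h H}
    {κ : Cm d → Cm a × Cm h} (hκ : Lift S Ψ j z e κ) {θ : Cm a × Cm h → Cm d}
    (hθ : Sec S Ψ e (κ z) j θ) (U : Cm d) :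
    fderiv ℂ θ (κ z) (fderiv ℂ κ z U) = U := by
  have h1 : HasFDerivAt (fun v => θ (κ v)) ((fderiv ℂ θ (κ z)).comp (fderiv ℂ κ z)) z :=
    hθ.an.differentiableAt.hasFDerivAt.comp z hκ.an.differentiableAt.hasFDerivAt
  have h2 : HasFDerivAt (fun v => θ (κ v)) (ContinuousLinearMap.id ℂ (Cm d)) z :=
    (hasFDerivAt_id z).congr_of_eventuallyEq (sec_lift hz hκ hθ)
  exact congrArg (fun T : Cm d →L[ℂ] Cm d => T U) (h1.unique h2)

variable [IsManifold 𝓘(ℂ, Cm h) ω H]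

theorem tr_an {e e' : Chart h H} (he : e ∈ atlas (Cm h) H) (he' : e' ∈ atlas (Cm h) H)
    {w : Cm h} (hw : w ∈ e.target) (hw' : e.symm w ∈ e'.source) :
    AnalyticAt ℂ (fun u => e' (e.symm u)) w := by
  have h1 : ContMDiffAt 𝓘(ℂ, Cm h) 𝓘(ℂ, Cm h) ω (fun u => e' (e.symm u)) w :=
    ContMDiffAt.comp (g := e') w (chart_at he' hw') (symm_at he hw)
  exact (contMDiffAt_iff_contDiffAt.1 h1).analyticAt

/-- The change of charts and a translation. -/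
def tr (e e' : Chart h H) (l : Cm a) (r : Cm a × Cm h) : Cm a × Cm h :=
  (r.1 + l, e' (e.symm r.2))

theorem tr_an' {e e' : Chart h H} (he : e ∈ atlas (Cm h) H) (he' : e' ∈ atlas (Cm h) H)
    {r : Cm a × Cm h} (hr : r.2 ∈ e.target) (hr' : e.symm r.2 ∈ e'.source) (l : Cm a) :
    AnalyticAt ℂ (tr e e' l) r :=
  (analyticAt_fst.add analyticAt_const).prod
    (AnalyticAt.fun_comp (g := fun u => e' (e.symm u)) (f := Prod.snd) (tr_an he he' hr hr')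
      analyticAt_snd)

theorem tr_fd {e e' : Chart h H} (he : e ∈ atlas (Cm h) H) (he' : e' ∈ atlas (Cm h) H)
    {r : Cm a × Cm h} (hr : r.2 ∈ e.target) (hr' : e.symm r.2 ∈ e'.source) (l : Cm a)
    (U : Cm a × Cm h) :
    fderiv ℂ (tr e e' l) r U = (U.1, fderiv ℂ (fun u => e' (e.symm u)) r.2 U.2) := by
  have h1 : HasFDerivAt (tr e e' l) ((ContinuousLinearMap.fst ℂ (Cm a) (Cm h)).prod
      ((fderiv ℂ (fun u => e' (e.symm u)) r.2).comp (ContinuousLinearMap.snd ℂ (Cm a) (Cm h)))) r :=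
    (hasFDerivAt_fst.add_const l).prodMk
      (HasFDerivAt.comp (g := fun u => e' (e.symm u)) r
        (tr_an he he' hr hr').differentiableAt.hasFDerivAt hasFDerivAt_snd)
  rw [h1.fderiv]
  rfl

theorem Sec.trans {e e' : Chart h H} (he : e ∈ atlas (Cm h) H) {r : Cm a × Cm h}
    (hr : r.2 ∈ e.target) (hr' : e.symm r.2 ∈ e'.source) {l : Cm a} (hl : l ∈ Per Ψ)
    {j : Fin S.N} {θ : Cm a × Cm h → Cm d} (hθ : Sec S Ψ e' (tr e e' l r) j θ) :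
    Sec S Ψ e r j (fun r' => θ (tr e e' l r')) := by
  have ha := tr_an' he hθ.mem hr hr' l
  refine ⟨he, hr, AnalyticAt.fun_comp (g := θ) hθ.an ha, hθ.bal, ?_⟩
  have h1 : ∀ᶠ r' : Cm a × Cm h in 𝓝 r, r'.2 ∈ e.target :=
    (continuous_snd.continuousAt).eventually (e.open_target.mem_nhds hr)
  have h2 : ∀ᶠ r' : Cm a × Cm h in 𝓝 r, e.symm r'.2 ∈ e'.source := by
    have h3 : ContinuousAt (fun r' : Cm a × Cm h => e.symm r'.2) r :=
      ContinuousAt.comp (g := e.symm) (e.continuousAt_symm hr) continuous_snd.continuousAt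
    exact h3.eventually (e'.open_source.mem_nhds hr')
  filter_upwards [ha.continuousAt.eventually hθ.eq, h1, h2] with r' k1 k2 k3
  rw [← k1]
  show _ = Ψ (r'.1 + l, e'.symm (e' (e.symm r'.2)))
  rw [e'.left_inv k3]
  exact (hl (r'.1, e.symm r'.2)).symm

/-- Two lifts of the same sheet. -/
theorem lift_change (hd : d = a + h) (hΨ : Cvr h S Ψ) {j : Fin S.N} {z : Cm d}
    (hz : z ∈ ball (0 : Cm d) 3) {e e' : Chart h H} {κ κ' : Cm d → Cm a × Cm h}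
    (hκ : Lift S Ψ j z e κ) (hκ' : Lift S Ψ j z e' κ') :
    e.symm (κ z).2 ∈ e'.source ∧ ∃ l ∈ Per Ψ, κ' z = tr e e' l (κ z) ∧
      ∀ U, fderiv ℂ κ' z U =
        ((fderiv ℂ κ z U).1, fderiv ℂ (fun u => e' (e.symm u)) (κ z).2 (fderiv ℂ κ z U).2) := by
  have h1 : Ψ ((κ z).1, e.symm (κ z).2) = Ψ ((κ' z).1, e'.symm (κ' z).2) := by
    rw [hκ.eq.self_of_nhds, hκ'.eq.self_of_nhds]
  obtain ⟨h2, h3⟩ := hΨ.eqv _ _ h1
  simp only at h2 h3
  have h4 : e.symm (κ z).2 ∈ e'.source := by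
    rw [← h2]
    exact e'.map_target hκ'.tgt
  have h5 : κ' z = tr e e' ((κ' z).1 - (κ z).1) (κ z) := by
    refine Prod.ext ?_ ?_
    · show (κ' z).1 = (κ z).1 + ((κ' z).1 - (κ z).1)
      abel
    · show (κ' z).2 = e' (e.symm (κ z).2)
      rw [← h2, e'.right_inv hκ'.tgt]
  refine ⟨h4, _, h3, h5, fun U => ?_⟩
  obtain ⟨θ', hθ', hθz⟩ := exists_sec_at hΨ hz hκ'
  have hθ := hθ'
  rw [h5] at hθ
  have h6 := Sec.trans hκ.mem hκ.tgt h4 h3 hθ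
  have h7 := sec_lift_fd hz hκ h6 U
  have h8 := sec_lift_fd hz hκ' hθ' U
  have h9 : fderiv ℂ (fun r' => θ' (tr e e' ((κ' z).1 - (κ z).1) r')) (κ z) =
      (fderiv ℂ θ' (κ' z)).comp (fderiv ℂ (tr e e' ((κ' z).1 - (κ z).1)) (κ z)) := by
    have h10 := hθ'.an.differentiableAt.hasFDerivAt
    rw [h5] at h10
    have h11 := HasFDerivAt.comp (κ z) h10
      (tr_an' hκ.mem hκ'.mem hκ.tgt h4 ((κ' z).1 - (κ z).1)).differentiableAt.hasFDerivAt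
    rw [← h5] at h11
    exact h11.fderiv
  rw [h9, ContinuousLinearMap.comp_apply, tr_fd hκ.mem hκ'.mem hκ.tgt h4] at h7
  exact ((inj_of hd (fun v => sec_lift_fd hz hκ' hθ' v)).1 (h7.trans h8.symm)).symm

omit [IsManifold 𝓘(ℂ, Cm h) ω H] in
/-- Two sections. -/
theorem sec_change [Subsingleton Γ] {e : Chart h H} {r : Cm a × Cm h} {j j' : Fin S.N}
    {θ θ' : Cm a × Cm h → Cm d} (hθ : Sec S Ψ e r j θ) (hθ' : Sec S Ψ e r j' θ') :
    ∃ τ : Cm d → Cm d, AnalyticAt ℂ τ (θ r) ∧ τ (θ r) = θ' r ∧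
      (∀ᶠ u in 𝓝 (θ r), S.σ j u = S.σ j' (τ u)) ∧ ∀ᶠ r' in 𝓝 r, θ' r' = τ (θ r') := by
  have h1 : S.σ j (θ r) = (1 : Γ) • S.σ j' (θ' r) := by
    rw [one_smul, ← hθ.eq.self_of_nhds, ← hθ'.eq.self_of_nhds]
  obtain ⟨τ, h2, h3, h4⟩ := S.hol j j' _ hθ.bal _ hθ'.bal 1 h1
  simp only [one_smul] at h4
  refine ⟨τ, h2, h3, h4, ?_⟩
  have h5 : ∀ᶠ r' in 𝓝 r, τ (θ r') ∈ ball (0 : Cm d) 3 := by
    have h6 : ContinuousAt (fun r' => τ (θ r')) r :=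
      ContinuousAt.comp (g := τ) h2.continuousAt hθ.an.continuousAt
    refine h6.eventually (isOpen_ball.mem_nhds ?_)
    show τ (θ r) ∈ ball (0 : Cm d) 3
    rw [h3]
    exact hθ'.bal
  filter_upwards [hθ.ev, hθ'.ev, h5, hθ.an.continuousAt.eventually h4] with r' k1 k2 k3 k4
  refine (S.inj j' _ k2.bal _ k3 1 ?_).2
  rw [one_smul, ← k4, ← k1.eq.self_of_nhds, ← k2.eq.self_of_nhds]

end

end Vale.Agent.P281.H702.HKT
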