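import Vale.Agent.P281.H702.HKT.GenC
import Vale.Agent.P281.H615.HKT.FibTC

/-!
# P281, class C: `GenPsi`
-/

open scoped Manifold ContDiff Topology
open Filter

namespace Vale.Agent.P281.H702.HKT

theorem cocoK_of {a : ℕ} {K : Type} {l : K → Vale.Agent.P272.K.Cm a}
    (h : ∃ C : Set (Vale.Agent.P272.K.Cm a), IsCompact C ∧ ∀ z, ∃ k : K, z + l k ∈ C) :
    Coco (LK l) := by
  obtain ⟨C, hC, hz⟩ := h
  refine ⟨C, hC, fun z => ?_⟩
  obtain ⟨k, hk⟩ := hz z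
  exact ⟨l k, ⟨k, rfl⟩, hk⟩

/-- **G2**, the generation. -/
theorem genPsi : H615.HKT.GenPsi := by
  intro a h d E K H _ _ _ _ _ _ _ _ _ _ _ _ S ψ l A hd _ hH hP _ _ hC
  haveI : Nonempty E := inferInstance
  exact genU_psi hd.symm hP (cocoK_of hC) hH

end Vale.Agent.P281.H702.HKT
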