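import Vale.Agent.P281.H702.HKT.Form

/-!
# P281, project T-HKT (helper702): closed forms on `ℂ^a × H` off a set of codimension two
-/

open Set Filter Metric Vale.Agent.P272.K
open scoped Topology ContDiff Manifold

noncomputable section

set_option maxSynthPendingDepth 3

namespace Vale.Agent.P281.H702.HKT

section gen
variable {X Y Z : Type*} [NormedAddCommGroup X] [NormedSpace ℂ X]
  [NormedAddCommGroup Y] [NormedSpace ℂ Y] [NormedAddCommGroup Z] [NormedSpace ℂ Z]

/-- Two continuous functions which agree on a dense set. -/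
theorem eq_of_dense {X : Type*} [TopologicalSpace X] {Y : Type*} [TopologicalSpace Y] [T2Space Y]
    {f g : X → Y} {x : X} {D : Set X} (hD : (𝓝[D] x).NeBot) (hf : ContinuousAt f x)
    (hg : ContinuousAt g x) (h : ∀ᶠ y in 𝓝 x, y ∈ D → f y = g y) : f x = g x := by
  have := hD
  refine tendsto_nhds_unique_of_eventuallyEq (l := 𝓝[D] x)
    (hf.tendsto.mono_left nhdsWithin_le_nhds) (hg.tendsto.mono_left nhdsWithin_le_nhds) ?_
  filter_upwards [mem_nhdsWithin_of_mem_nhds h, self_mem_nhdsWithin] with y h1 h2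
  exact h1 h2

end gen

section ext
variable {ι : Type} [Fintype ι] {V : Type} [NormedAddCommGroup V] [NormedSpace ℂ V]

/-- `D` is the good set, `O` the domain: holomorphic functions extend. -/
def HarD (O D : Set V) : Prop :=
  ∀ f : V → ℂ, (∀ q ∈ O, q ∈ D → AnalyticAt ℂ f q) →
    ∃ g : V → ℂ, (∀ q ∈ O, AnalyticAt ℂ g q) ∧ ∀ q ∈ O, q ∈ D → g q = f q

variable [FiniteDimensional ℂ V]

theorem ext1 {O D : Set V} (hO : HarD O D) {B : V → (V →L[ℂ] ℂ)}
    (hB : ∀ q ∈ O, q ∈ D → AnalyticAt ℂ B q) :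
    ∃ B' : V → (V →L[ℂ] ℂ), (∀ q ∈ O, AnalyticAt ℂ B' q) ∧ ∀ q ∈ O, q ∈ D → B' q = B q := by
  set b := Module.finBasis ℂ V with hb
  have h1 : ∀ i, ∃ g : V → ℂ, (∀ q ∈ O, AnalyticAt ℂ g q) ∧ ∀ q ∈ O, q ∈ D → g q = B q (b i) := by
    intro i
    refine hO _ fun q hq hqD => ?_
    exact ((ContinuousLinearMap.apply ℂ ℂ (b i)).analyticAt _).comp (hB q hq hqD)
  choose g hg hg' using h1
  refine ⟨fun q => ∑ i, g i q • LinearMap.toContinuousLinearMap (b.coord i), fun q hq => ?_,
    fun q hq hqD => ?_⟩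
  · exact Finset.analyticAt_fun_sum _ fun i _ => (hg i q hq).smul analyticAt_const
  · refine ContinuousLinearMap.ext fun v => ?_
    conv_rhs => rw [← b.sum_repr v]
    rw [map_sum]
    simp only [sum_apply, smul_apply, LinearMap.coe_toContinuousLinearMap', Module.Basis.coord_apply,
      smul_eq_mul, map_smul]
    exact Finset.sum_congr rfl fun i _ => by rw [hg' i q hq hqD, mul_comm]

theorem ext2 {O D : Set V} (hO : HarD O D) {A : V → BL V}
    (hA : ∀ q ∈ O, q ∈ D → AnalyticAt ℂ A q) :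
    ∃ A' : V → BL V, (∀ q ∈ O, AnalyticAt ℂ A' q) ∧ ∀ q ∈ O, q ∈ D → A' q = A q := by
  set b := Module.finBasis ℂ V with hb
  have h1 : ∀ i, ∃ B' : V → (V →L[ℂ] ℂ), (∀ q ∈ O, AnalyticAt ℂ B' q) ∧
      ∀ q ∈ O, q ∈ D → B' q = A q (b i) := by
    intro i
    refine ext1 hO fun q hq hqD => ?_
    exact ((ContinuousLinearMap.apply ℂ (V →L[ℂ] ℂ) (b i)).analyticAt _).comp (hA q hq hqD)
  choose g hg hg' using h1
  refine ⟨fun q => ∑ i, (LinearMap.toContinuousLinearMap (b.coord i)).smulRight (g i q),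
    fun q hq => ?_, fun q hq hqD => ?_⟩
  · refine Finset.analyticAt_fun_sum _ fun i _ => ?_
    exact ((ContinuousLinearMap.smulRightL ℂ V (V →L[ℂ] ℂ)
      (LinearMap.toContinuousLinearMap (b.coord i))).analyticAt _).comp (hg i q hq)
  · refine ContinuousLinearMap.ext fun v => ?_
    conv_rhs => rw [← b.sum_repr v]
    rw [map_sum]
    simp only [sum_apply, ContinuousLinearMap.smulRight_apply,
      LinearMap.coe_toContinuousLinearMap', Module.Basis.coord_apply, map_smul]
    exact Finset.sum_congr rfl fun i _ => by rw [hg' i q hq hqD]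

end ext

section
variable {a h : ℕ} {H : Type} [TopologicalSpace H] [ChartedSpace (Cm h) H]

/-- The points off `A`, in the chart `e`. -/
def Off (A : Set (Cm a × H)) (e : Chart h H) : Set (Cm a × Cm h) :=
  {r | (r.1, e.symm r.2) ∉ A}

/-- The domain of the chart. -/
def Dom (a : ℕ) (e : Chart h H) : Set (Cm a × Cm h) := {r | r.2 ∈ e.target}

/-- `A` is closed, nowhere dense, invariant, and holomorphic functions extend. -/
structure Sml (L : Set (Cm a)) (A : Set (Cm a × H)) : Prop where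
  cls : IsClosed A
  inv : ∀ l ∈ L, ∀ r : Cm a × H, (r.1 + l, r.2) ∈ A ↔ r ∈ A
  har : ∀ e ∈ atlas (Cm h) H, HarD (Dom a e) (Off A e)
  dns : ∀ e ∈ atlas (Cm h) H, ∀ r ∈ Dom a e, (𝓝[Off A e] r).NeBot

/-- A closed holomorphic 1-form on `ℂ^a × H` off `A`, periodic. -/
structure PF1A (L : Set (Cm a)) (A : Set (Cm a × H))
    (B : Chart h H → Cm a × Cm h → (Cm a × Cm h →L[ℂ] ℂ)) : Prop where
  an : ∀ e ∈ atlas (Cm h) H, ∀ r ∈ Dom a e, r ∈ Off A e → AnalyticAt ℂ (B e) r
  closed : ∀ e ∈ atlas (Cm h) H, ∀ r ∈ Dom a e, r ∈ Off A e → Cls1 (B e) r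
  change : ∀ e ∈ atlas (Cm h) H, ∀ e' ∈ atlas (Cm h) H, ∀ z, ∀ x ∈ e.source ∩ e'.source,
    (z, x) ∉ A → ∀ U, B e (z, e x) U =
      B e' (z, e' x) (U.1, fderiv ℂ (fun u => e' (e.symm u)) (e x) U.2)
  per : ∀ e ∈ atlas (Cm h) H, ∀ l ∈ L, ∀ r ∈ Dom a e, r ∈ Off A e →
    B e (r.1 + l, r.2) = B e r

/-- A closed holomorphic 2-form on `ℂ^a × H` off `A`, periodic. -/
structure PF2A (L : Set (Cm a)) (A : Set (Cm a × H))
    (B : Chart h H → Cm a × Cm h → BL (Cm a × Cm h)) : Prop where
  an : ∀ e ∈ atlas (Cm h) H, ∀ r ∈ Dom a e, r ∈ Off A e → AnalyticAt ℂ (B e) r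
  alt : ∀ e ∈ atlas (Cm h) H, ∀ r ∈ Dom a e, r ∈ Off A e → ∀ U W, B e r U W = -B e r W U
  closed : ∀ e ∈ atlas (Cm h) H, ∀ r ∈ Dom a e, r ∈ Off A e → Cls2 (B e) r
  change : ∀ e ∈ atlas (Cm h) H, ∀ e' ∈ atlas (Cm h) H, ∀ z, ∀ x ∈ e.source ∩ e'.source,
    (z, x) ∉ A → ∀ U W, B e (z, e x) U W =
      B e' (z, e' x) (U.1, fderiv ℂ (fun u => e' (e.symm u)) (e x) U.2)
        (W.1, fderiv ℂ (fun u => e' (e.symm u)) (e x) W.2)
  per : ∀ e ∈ atlas (Cm h) H, ∀ l ∈ L, ∀ r ∈ Dom a e, r ∈ Off A e →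
    B e (r.1 + l, r.2) = B e r

omit [ChartedSpace (Cm h) H] in
theorem dom_open (e : Chart h H) : IsOpen (Dom a e) :=
  e.open_target.preimage continuous_snd

omit [ChartedSpace (Cm h) H] in
/-- Near a point of `Off A e`, all points are in it. -/
theorem off_nhds {A : Set (Cm a × H)} (hA : IsClosed A) {e : Chart h H} {r : Cm a × Cm h}
    (hr : r ∈ Dom a e) (hrA : r ∈ Off A e) : ∀ᶠ r' in 𝓝 r, r' ∈ Off A e := by
  have h1 : ContinuousAt (fun r' : Cm a × Cm h => (r'.1, e.symm r'.2)) r :=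
    continuous_fst.continuousAt.prodMk
      (ContinuousAt.comp (g := e.symm) (e.continuousAt_symm hr) continuous_snd.continuousAt)
  exact h1.eventually (hA.isOpen_compl.mem_nhds hrA)

omit [ChartedSpace (Cm h) H] in
theorem dom_ev {e : Chart h H} {r : Cm a × Cm h} (hr : r ∈ Dom a e) :
    ∀ᶠ r' in 𝓝 r, r' ∈ Dom a e := (dom_open e).eventually_mem hr

variable [IsManifold 𝓘(ℂ, Cm h) ω H]

/-- The point `(z, x)` in the chart. -/
def inC (e : Chart h H) (q : Cm a × H) : Cm a × Cm h := (q.1, e q.2)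

/-- The change of charts of forms, by density. -/
theorem change_ext {L : Set (Cm a)} {A : Set (Cm a × H)} (hA : Sml (h := h) L A)
    {e e' : Chart h H} (he : e ∈ atlas (Cm h) H) (he' : e' ∈ atlas (Cm h) H) {z : Cm a} {x : H}
    (hx : x ∈ e.source ∩ e'.source) {f g : Cm a × Cm h → ℂ}
    (hf : ContinuousAt f (z, e x)) (hg : ContinuousAt g (z, e x))
    (hfg : ∀ z, ∀ x ∈ e.source ∩ e'.source, (z, x) ∉ A → f (z, e x) = g (z, e x)) :
    f (z, e x) = g (z, e x) := by
  refine eq_of_dense (hA.dns e he (z, e x) (e.map_source hx.1)) hf hg ?_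
  have h1 : ∀ᶠ r in 𝓝 (z, e x), e.symm r.2 ∈ e'.source := by
    have h3 : ContinuousAt (fun r' : Cm a × Cm h => e.symm r'.2) (z, e x) :=
      ContinuousAt.comp (g := e.symm) (e.continuousAt_symm (e.map_source hx.1))
        continuous_snd.continuousAt
    refine h3.eventually (e'.open_source.mem_nhds ?_)
    show e.symm (e x) ∈ e'.source
    rw [e.left_inv hx.1]
    exact hx.2
  filter_upwards [h1, dom_ev (r := (z, e x)) (e.map_source hx.1)] with r k1 k2 k3
  have k4 := hfg r.1 (e.symm r.2) ⟨e.map_target k2, k1⟩ k3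
  rwa [e.right_inv k2] at k4

theorem tr_cont {e e' : Chart h H} (he : e ∈ atlas (Cm h) H) (he' : e' ∈ atlas (Cm h) H)
    {z : Cm a} {x : H} (hx : x ∈ e.source ∩ e'.source) :
    ContinuousAt (fun r : Cm a × Cm h => (r.1, e' (e.symm r.2))) (z, e x) := by
  have h1 := (tr_an' he he' (r := (z, e x)) (e.map_source hx.1)
    (by rw [e.left_inv hx.1]; exact hx.2) (0 : Cm a)).continuousAt
  have h2 : (fun r : Cm a × Cm h => (r.1, e' (e.symm r.2))) = tr e e' 0 := by
    funext r
    simp [tr]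
  rw [h2]
  exact h1

theorem jac_cont {e e' : Chart h H} (he : e ∈ atlas (Cm h) H) (he' : e' ∈ atlas (Cm h) H)
    {z : Cm a} {x : H} (hx : x ∈ e.source ∩ e'.source) (U : Cm a × Cm h) :
    ContinuousAt (fun r : Cm a × Cm h =>
      ((U.1, fderiv ℂ (fun u => e' (e.symm u)) r.2 U.2) : Cm a × Cm h)) (z, e x) := by
  have h1 : ContinuousAt (fun w => fderiv ℂ (fun u => e' (e.symm u)) w) (e x) :=
    (tr_an he he' (e.map_source hx.1) (by rw [e.left_inv hx.1]; exact hx.2)).fderiv.continuousAt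
  have h2 : ContinuousAt (fun r : Cm a × Cm h => fderiv ℂ (fun u => e' (e.symm u)) r.2)
      (z, e x) := ContinuousAt.comp (g := fun w => fderiv ℂ (fun u => e' (e.symm u)) w)
      (f := fun r : Cm a × Cm h => r.2) h1 continuous_snd.continuousAt
  exact continuousAt_const.prodMk (h2.clm_apply continuousAt_const)

theorem pf1_ext {L : Set (Cm a)} {A : Set (Cm a × H)} (hA : Sml (h := h) L A)
    {B : Chart h H → Cm a × Cm h → (Cm a × Cm h →L[ℂ] ℂ)} (hB : PF1A L A B) :
    ∃ B' : Chart h H → Cm a × Cm h → (Cm a × Cm h →L[ℂ] ℂ), PF1 L B' ∧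
      ∀ e ∈ atlas (Cm h) H, ∀ r ∈ Dom a e, r ∈ Off A e → B' e r = B e r := by
  classical
  have h1 : ∀ e : Chart h H, ∃ B' : Cm a × Cm h → (Cm a × Cm h →L[ℂ] ℂ),
      e ∈ atlas (Cm h) H → (∀ r ∈ Dom a e, AnalyticAt ℂ B' r) ∧
        ∀ r ∈ Dom a e, r ∈ Off A e → B' r = B e r := by
    intro e
    by_cases he : e ∈ atlas (Cm h) H
    · obtain ⟨B', k1, k2⟩ := ext1 (hA.har e he) (hB.an e he)
      exact ⟨B', fun _ => ⟨k1, k2⟩⟩
    · exact ⟨0, fun h => absurd h he⟩
  choose B' hB' using h1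
  have han := fun e he => (hB' e he).1
  have heq := fun e he => (hB' e he).2
  have hev : ∀ e ∈ atlas (Cm h) H, ∀ r ∈ Dom a e, r ∈ Off A e → B' e =ᶠ[𝓝 r] B e := by
    intro e he r hr hrA
    filter_upwards [dom_ev hr, off_nhds hA.cls hr hrA] with r' k1 k2
    exact heq e he r' k1 k2
  refine ⟨B', ⟨fun e he z w hw => han e he _ hw, fun e he z w hw u v => ?_,
    fun e he e' he' z x hx U => ?_, fun e he l hl z w hw => ?_⟩, heq⟩
  · have k1 : ContinuousAt (fun r => fderiv ℂ (B' e) r u v) (z, w) :=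
      ((han e he (z, w) hw).fderiv.continuousAt.clm_apply continuousAt_const).clm_apply
        continuousAt_const
    have k2 : ContinuousAt (fun r => fderiv ℂ (B' e) r v u) (z, w) :=
      ((han e he (z, w) hw).fderiv.continuousAt.clm_apply continuousAt_const).clm_apply
        continuousAt_const
    refine eq_of_dense (hA.dns e he (z, w) hw) k1 k2 ?_
    filter_upwards [dom_ev (r := (z, w)) hw] with r k3 k4
    rw [(hev e he r k3 k4).fderiv_eq]
    exact hB.closed e he r k3 k4 u v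
  · have k1 : ContinuousAt (fun r => B' e r U) (z, e x) :=
      (han e he _ (e.map_source hx.1)).continuousAt.clm_apply continuousAt_const
    have k2 : ContinuousAt (fun r : Cm a × Cm h => B' e' (r.1, e' (e.symm r.2))
        (U.1, fderiv ℂ (fun u => e' (e.symm u)) r.2 U.2)) (z, e x) := by
      refine ContinuousAt.clm_apply ?_ (jac_cont he he' hx U)
      refine ContinuousAt.comp (g := B' e') (f := fun r : Cm a × Cm h => (r.1, e' (e.symm r.2)))
        ?_ (tr_cont he he' hx)
      refine (han e' he' _ ?_).continuousAt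
      show e' (e.symm (e x)) ∈ e'.target
      rw [e.left_inv hx.1]
      exact e'.map_source hx.2
    have k3 := change_ext hA he he' hx k1 k2 (fun z x hx hxA => by
      simp only [e.left_inv hx.1]
      rw [heq e he _ (e.map_source hx.1) (by
        show (z, e.symm (e x)) ∉ A
        rwa [e.left_inv hx.1]), heq e' he' _ (e'.map_source hx.2) (by
        show (z, e'.symm (e' x)) ∉ A
        rwa [e'.left_inv hx.2])]
      exact hB.change e he e' he' z x hx hxA U)
    simp only [e.left_inv hx.1] at k3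
    exact k3
  · have k0 : ContinuousAt (fun r : Cm a × Cm h => (r.1 + l, r.2)) (z, w) :=
      (continuous_fst.add continuous_const).continuousAt.prodMk continuous_snd.continuousAt
    have k1 : ContinuousAt (fun r : Cm a × Cm h => B' e (r.1 + l, r.2)) (z, w) :=
      ContinuousAt.comp (g := B' e) (f := fun r : Cm a × Cm h => (r.1 + l, r.2))
        (han e he (z + l, w) hw).continuousAt k0
    have k3 : (fun r : Cm a × Cm h => B' e (r.1 + l, r.2)) (z, w) = B' e (z, w) := by
      refine eq_of_dense (hA.dns e he (z, w) hw) k1 (han e he (z, w) hw).continuousAt ?_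
      filter_upwards [dom_ev (r := (z, w)) hw] with r k4 k5
      rw [heq e he (r.1 + l, r.2) k4 (fun k6 => k5 ((hA.inv l hl _).1 k6)), heq e he r k4 k5]
      exact hB.per e he l hl r k4 k5
    exact k3

theorem pf2_ext {L : Set (Cm a)} {A : Set (Cm a × H)} (hA : Sml (h := h) L A)
    {B : Chart h H → Cm a × Cm h → BL (Cm a × Cm h)} (hB : PF2A L A B) :
    ∃ B' : Chart h H → Cm a × Cm h → BL (Cm a × Cm h), PF2 L B' ∧
      ∀ e ∈ atlas (Cm h) H, ∀ r ∈ Dom a e, r ∈ Off A e → B' e r = B e r := by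
  classical
  have h1 : ∀ e : Chart h H, ∃ B' : Cm a × Cm h → BL (Cm a × Cm h),
      e ∈ atlas (Cm h) H → (∀ r ∈ Dom a e, AnalyticAt ℂ B' r) ∧
        ∀ r ∈ Dom a e, r ∈ Off A e → B' r = B e r := by
    intro e
    by_cases he : e ∈ atlas (Cm h) H
    · obtain ⟨B', k1, k2⟩ := ext2 (hA.har e he) (hB.an e he)
      exact ⟨B', fun _ => ⟨k1, k2⟩⟩
    · exact ⟨0, fun h => absurd h he⟩
  choose B' hB' using h1
  have han := fun e he => (hB' e he).1
  have heq := fun e he => (hB' e he).2
  have hev : ∀ e ∈ atlas (Cm h) H, ∀ r ∈ Dom a e, r ∈ Off A e → B' e =ᶠ[𝓝 r] B e := by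
    intro e he r hr hrA
    filter_upwards [dom_ev hr, off_nhds hA.cls hr hrA] with r' k1 k2
    exact heq e he r' k1 k2
  refine ⟨B', ⟨fun e he z w hw => han e he _ hw, fun e he z w hw U W => ?_,
    fun e he z w hw u v t => ?_,
    fun e he e' he' z x hx U W => ?_, fun e he l hl z w hw => ?_⟩, heq⟩
  · have k1 : ∀ U W, ContinuousAt (fun r => B' e r U W) (z, w) := fun U W =>
      ((han e he (z, w) hw).continuousAt.clm_apply continuousAt_const).clm_apply
        continuousAt_const
    refine eq_of_dense (hA.dns e he (z, w) hw) (k1 U W) (k1 W U).neg ?_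
    filter_upwards [dom_ev (r := (z, w)) hw] with r k3 k4
    show B' e r U W = -(B' e r W U)
    rw [heq e he r k3 k4]
    exact hB.alt e he r k3 k4 U W
  · have k1 : ∀ u v t, ContinuousAt (fun r => fderiv ℂ (B' e) r u v t) (z, w) := fun u v t =>
      (((han e he (z, w) hw).fderiv.continuousAt.clm_apply continuousAt_const).clm_apply
        continuousAt_const).clm_apply continuousAt_const
    refine eq_of_dense (hA.dns e he (z, w) hw) (((k1 u v t).add (k1 v t u)).add (k1 t u v))
      (continuousAt_const (y := (0 : ℂ))) ?_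
    filter_upwards [dom_ev (r := (z, w)) hw] with r k3 k4
    show fderiv ℂ (B' e) r u v t + fderiv ℂ (B' e) r v t u + fderiv ℂ (B' e) r t u v = 0
    rw [(hev e he r k3 k4).fderiv_eq]
    exact hB.closed e he r k3 k4 u v t
  · have k1 : ContinuousAt (fun r => B' e r U W) (z, e x) :=
      ((han e he _ (e.map_source hx.1)).continuousAt.clm_apply continuousAt_const).clm_apply
        continuousAt_const
    have k2 : ContinuousAt (fun r : Cm a × Cm h => B' e' (r.1, e' (e.symm r.2))
        (U.1, fderiv ℂ (fun u => e' (e.symm u)) r.2 U.2)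
        (W.1, fderiv ℂ (fun u => e' (e.symm u)) r.2 W.2)) (z, e x) := by
      refine ContinuousAt.clm_apply (ContinuousAt.clm_apply ?_ (jac_cont he he' hx U))
        (jac_cont he he' hx W)
      refine ContinuousAt.comp (g := B' e') (f := fun r : Cm a × Cm h => (r.1, e' (e.symm r.2)))
        ?_ (tr_cont he he' hx)
      refine (han e' he' _ ?_).continuousAt
      show e' (e.symm (e x)) ∈ e'.target
      rw [e.left_inv hx.1]
      exact e'.map_source hx.2
    have k3 := change_ext hA he he' hx k1 k2 (fun z x hx hxA => by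
      simp only [e.left_inv hx.1]
      rw [heq e he _ (e.map_source hx.1) (by
        show (z, e.symm (e x)) ∉ A
        rwa [e.left_inv hx.1]), heq e' he' _ (e'.map_source hx.2) (by
        show (z, e'.symm (e' x)) ∉ A
        rwa [e'.left_inv hx.2])]
      exact hB.change e he e' he' z x hx hxA U W)
    simp only [e.left_inv hx.1] at k3
    exact k3
  · have k0 : ContinuousAt (fun r : Cm a × Cm h => (r.1 + l, r.2)) (z, w) :=
      (continuous_fst.add continuous_const).continuousAt.prodMk continuous_snd.continuousAt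
    have k1 : ContinuousAt (fun r : Cm a × Cm h => B' e (r.1 + l, r.2)) (z, w) :=
      ContinuousAt.comp (g := B' e) (f := fun r : Cm a × Cm h => (r.1 + l, r.2))
        (han e he (z + l, w) hw).continuousAt k0
    have k3 : (fun r : Cm a × Cm h => B' e (r.1 + l, r.2)) (z, w) = B' e (z, w) := by
      refine eq_of_dense (hA.dns e he (z, w) hw) k1 (han e he (z, w) hw).continuousAt ?_
      filter_upwards [dom_ev (r := (z, w)) hw] with r k4 k5
      rw [heq e he (r.1 + l, r.2) k4 (fun k6 => k5 ((hA.inv l hl _).1 k6)), heq e he r k4 k5]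
      exact hB.per e he l hl r k4 k5
    exact k3

end

end Vale.Agent.P281.H702.HKT
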