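import Vale.Agent.P281.H702.HKT.Desc

/-!
# P281, project T-HKT (helper702): forms on the sheets and periodic forms on `ℂ^a × H`
-/

open Set Filter Metric Vale.Agent.P272.K
open scoped Topology ContDiff Manifold

noncomputable section

set_option maxSynthPendingDepth 3

namespace Vale.Agent.P281.H702.HKT

open Vale.Agent.P281.H64.TK (jac dd Sheets)
open Vale.Agent.P281.H83.HK (IsHol2 Hol2)
open Vale.Agent.P281.H83.HKT (Hol1)
open Vale.Agent.P281.H702.HK (mf mf_apply mf_alt mf_analytic mf_fd mf_closed B2)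
open Vale.Agent.P281.H702.Z

theorem Cls1.congr {X : Type*} [NormedAddCommGroup X] [NormedSpace ℂ X] {b b' : X → (X →L[ℂ] ℂ)}
    {x : X} (h : Cls1 b x) (hb : b' =ᶠ[𝓝 x] b) : Cls1 b' x := by
  intro u v
  rw [hb.fderiv_eq]
  exact h u v

theorem Cls2.congr {X : Type*} [NormedAddCommGroup X] [NormedSpace ℂ X] {b b' : X → BL X}
    {x : X} (h : Cls2 b x) (hb : b' =ᶠ[𝓝 x] b) : Cls2 b' x := by
  intro u v w
  rw [hb.fderiv_eq]
  exact h u v w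

section
variable {d a h : ℕ} {M Γ H : Type} [TopologicalSpace M] [Group Γ] [MulAction Γ M]
  [TopologicalSpace H] [ChartedSpace (Cm h) H]

/-- A closed holomorphic 1-form on the sheets. -/
structure FS1 (S : Sheets d M Γ) (b : Fin S.N → Cm d → (Cm d →L[ℂ] ℂ)) : Prop where
  an : ∀ i, ∀ z ∈ ball (0 : Cm d) 3, AnalyticAt ℂ (b i) z
  cls : ∀ i, ∀ z ∈ ball (0 : Cm d) 3, Cls1 (b i) z
  change : ∀ i j, ∀ z ∈ ball (0 : Cm d) 3, ∀ z' ∈ ball (0 : Cm d) 3, ∀ θ : Cm d → Cm d,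
    AnalyticAt ℂ θ z → θ z = z' → (∀ᶠ u in 𝓝 z, S.σ i u = S.σ j (θ u)) →
      ∀ U, b i z U = b j z' (fderiv ℂ θ z U)

/-- A closed holomorphic 2-form on the sheets. -/
structure FS2 (S : Sheets d M Γ) (A : Fin S.N → Cm d → BL (Cm d)) : Prop where
  an : ∀ i, ∀ z ∈ ball (0 : Cm d) 3, AnalyticAt ℂ (A i) z
  alt : ∀ i, ∀ z ∈ ball (0 : Cm d) 3, ∀ U W, A i z U W = -A i z W U
  cls : ∀ i, ∀ z ∈ ball (0 : Cm d) 3, Cls2 (A i) z
  change : ∀ i j, ∀ z ∈ ball (0 : Cm d) 3, ∀ z' ∈ ball (0 : Cm d) 3, ∀ θ : Cm d → Cm d,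
    AnalyticAt ℂ θ z → θ z = z' → (∀ᶠ u in 𝓝 z, S.σ i u = S.σ j (θ u)) →
      ∀ U W, A i z U W = A j z' (fderiv ℂ θ z U) (fderiv ℂ θ z W)

open Classical in
/-- The pull-back of a 1-form to `ℂ^a × H`. -/
def asc1 (S : Sheets d M Γ) (Ψ : Cm a × H → M) (b : Fin S.N → Cm d → (Cm d →L[ℂ] ℂ))
    (e : Chart h H) (r : Cm a × Cm h) : Cm a × Cm h →L[ℂ] ℂ :=
  if hh : ∃ (j : Fin S.N) (θ : Cm a × Cm h → Cm d), Sec S Ψ e r j θ then
    pb1 (b hh.choose) hh.choose_spec.choose r else 0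

open Classical in
/-- The pull-back of a 2-form to `ℂ^a × H`. -/
def asc2 (S : Sheets d M Γ) (Ψ : Cm a × H → M) (A : Fin S.N → Cm d → BL (Cm d))
    (e : Chart h H) (r : Cm a × Cm h) : BL (Cm a × Cm h) :=
  if hh : ∃ (j : Fin S.N) (θ : Cm a × Cm h → Cm d), Sec S Ψ e r j θ then
    pb2 (A hh.choose) hh.choose_spec.choose r else 0

open Classical in
/-- The 1-form of a periodic 1-form. -/
def desc1 (S : Sheets d M Γ) (Ψ : Cm a × H → M)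
    (B : Chart h H → Cm a × Cm h → (Cm a × Cm h →L[ℂ] ℂ)) (j : Fin S.N) (z : Cm d) :
    Cm d →L[ℂ] ℂ :=
  if hh : ∃ (e : Chart h H) (κ : Cm d → Cm a × Cm h), Lift S Ψ j z e κ then
    pb1 (B hh.choose) hh.choose_spec.choose z else 0

open Classical in
/-- The 2-form of a periodic 2-form. -/
def desc2 (S : Sheets d M Γ) (Ψ : Cm a × H → M)
    (A : Chart h H → Cm a × Cm h → BL (Cm a × Cm h)) (j : Fin S.N) (z : Cm d) : BL (Cm d) :=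
  if hh : ∃ (e : Chart h H) (κ : Cm d → Cm a × Cm h), Lift S Ψ j z e κ then
    pb2 (A hh.choose) hh.choose_spec.choose z else 0

variable {S : Sheets d M Γ} {Ψ : Cm a × H → M}

theorem fd_comp' {θ : Cm a × Cm h → Cm d} {τ : Cm d → Cm d} {θ' : Cm a × Cm h → Cm d}
    {r : Cm a × Cm h} (hθ : AnalyticAt ℂ θ r) (hτ : AnalyticAt ℂ τ (θ r))
    (he : ∀ᶠ r' in 𝓝 r, θ' r' = τ (θ r')) (U : Cm a × Cm h) :
    fderiv ℂ θ' r U = fderiv ℂ τ (θ r) (fderiv ℂ θ r U) := by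
  have h1 : HasFDerivAt (fun r' => τ (θ r')) ((fderiv ℂ τ (θ r)).comp (fderiv ℂ θ r)) r :=
    HasFDerivAt.comp (g := τ) r hτ.differentiableAt.hasFDerivAt hθ.differentiableAt.hasFDerivAt
  have h2 : θ' =ᶠ[𝓝 r] fun r' => τ (θ r') := he
  rw [h2.fderiv_eq, h1.fderiv]
  rfl

theorem asc1_eq [Subsingleton Γ] {b : Fin S.N → Cm d → (Cm d →L[ℂ] ℂ)} (hb : FS1 S b)
    {e : Chart h H} {r : Cm a × Cm h} {j : Fin S.N} {θ : Cm a × Cm h → Cm d}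
    (hθ : Sec S Ψ e r j θ) (U : Cm a × Cm h) :
    asc1 S Ψ b e r U = b j (θ r) (fderiv ℂ θ r U) := by
  have hh : ∃ (j : Fin S.N) (θ : Cm a × Cm h → Cm d), Sec S Ψ e r j θ := ⟨j, θ, hθ⟩
  unfold asc1
  rw [dif_pos hh]
  have h1 := hh.choose_spec.choose_spec
  set j₁ := hh.choose
  set θ₁ := hh.choose_spec.choose
  obtain ⟨τ, k1, k2, k3, k4⟩ := sec_change h1 hθ
  rw [pb1_apply, hb.change j₁ j (θ₁ r) h1.bal (θ r) hθ.bal τ k1 k2 k3, fd_comp' h1.an k1 k4]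

theorem asc2_eq [Subsingleton Γ] {A : Fin S.N → Cm d → BL (Cm d)} (hA : FS2 S A)
    {e : Chart h H} {r : Cm a × Cm h} {j : Fin S.N} {θ : Cm a × Cm h → Cm d}
    (hθ : Sec S Ψ e r j θ) (U W : Cm a × Cm h) :
    asc2 S Ψ A e r U W = A j (θ r) (fderiv ℂ θ r U) (fderiv ℂ θ r W) := by
  have hh : ∃ (j : Fin S.N) (θ : Cm a × Cm h → Cm d), Sec S Ψ e r j θ := ⟨j, θ, hθ⟩
  unfold asc2
  rw [dif_pos hh]
  have h1 := hh.choose_spec.choose_spec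
  set j₁ := hh.choose
  set θ₁ := hh.choose_spec.choose
  obtain ⟨τ, k1, k2, k3, k4⟩ := sec_change h1 hθ
  rw [pb2_apply, hA.change j₁ j (θ₁ r) h1.bal (θ r) hθ.bal τ k1 k2 k3, fd_comp' h1.an k1 k4,
    fd_comp' h1.an k1 k4]

theorem asc1_ev [Subsingleton Γ] {b : Fin S.N → Cm d → (Cm d →L[ℂ] ℂ)} (hb : FS1 S b)
    {e : Chart h H} {r : Cm a × Cm h} {j : Fin S.N} {θ : Cm a × Cm h → Cm d}
    (hθ : Sec S Ψ e r j θ) : asc1 S Ψ b e =ᶠ[𝓝 r] pb1 (b j) θ := by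
  filter_upwards [hθ.ev] with r' hr'
  exact ContinuousLinearMap.ext fun U => asc1_eq hb hr' U

theorem asc2_ev [Subsingleton Γ] {A : Fin S.N → Cm d → BL (Cm d)} (hA : FS2 S A)
    {e : Chart h H} {r : Cm a × Cm h} {j : Fin S.N} {θ : Cm a × Cm h → Cm d}
    (hθ : Sec S Ψ e r j θ) : asc2 S Ψ A e =ᶠ[𝓝 r] pb2 (A j) θ := by
  filter_upwards [hθ.ev] with r' hr'
  exact ContinuousLinearMap.ext fun U => ContinuousLinearMap.ext fun W => asc2_eq hA hr' U W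

variable [IsManifold 𝓘(ℂ, Cm h) ω H]

omit [IsManifold 𝓘(ℂ, Cm h) ω H] [ChartedSpace (Cm h) H] [TopologicalSpace H]
  [TopologicalSpace M] in
theorem zero_per : (0 : Cm a) ∈ Per Ψ := by
  intro r
  rw [add_zero]

theorem sec_tr_fd {e e' : Chart h H} (he : e ∈ atlas (Cm h) H) {r : Cm a × Cm h}
    (hr : r.2 ∈ e.target) (hr' : e.symm r.2 ∈ e'.source) {l : Cm a}
    {j : Fin S.N} {θ : Cm a × Cm h → Cm d} (hθ : Sec S Ψ e' (tr e e' l r) j θ)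
    (U : Cm a × Cm h) : fderiv ℂ (fun r' => θ (tr e e' l r')) r U =
      fderiv ℂ θ (tr e e' l r) (U.1, fderiv ℂ (fun u => e' (e.symm u)) r.2 U.2) := by
  have h1 : HasFDerivAt (fun r' => θ (tr e e' l r'))
      ((fderiv ℂ θ (tr e e' l r)).comp (fderiv ℂ (tr e e' l) r)) r :=
    HasFDerivAt.comp (g := θ) r hθ.an.differentiableAt.hasFDerivAt
      (tr_an' he hθ.mem hr hr' l).differentiableAt.hasFDerivAt
  rw [h1.fderiv, ContinuousLinearMap.comp_apply, tr_fd he hθ.mem hr hr']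

theorem asc1_tr [Subsingleton Γ] (hΨ : Cvr h S Ψ) {b : Fin S.N → Cm d → (Cm d →L[ℂ] ℂ)}
    (hb : FS1 S b) {e e' : Chart h H} (he : e ∈ atlas (Cm h) H) (he' : e' ∈ atlas (Cm h) H)
    {r : Cm a × Cm h} (hr : r.2 ∈ e.target) (hr' : e.symm r.2 ∈ e'.source) {l : Cm a}
    (hl : l ∈ Per Ψ) (U : Cm a × Cm h) :
    asc1 S Ψ b e r U = asc1 S Ψ b e' (tr e e' l r)
      (U.1, fderiv ℂ (fun u => e' (e.symm u)) r.2 U.2) := by
  obtain ⟨j, θ, hθ⟩ := exists_sec hΨ he' (r := tr e e' l r) (e'.map_source hr')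
  rw [asc1_eq hb hθ, asc1_eq hb (hθ.trans he hr hr' hl), sec_tr_fd he hr hr' hθ]

theorem asc2_tr [Subsingleton Γ] (hΨ : Cvr h S Ψ) {A : Fin S.N → Cm d → BL (Cm d)}
    (hA : FS2 S A) {e e' : Chart h H} (he : e ∈ atlas (Cm h) H) (he' : e' ∈ atlas (Cm h) H)
    {r : Cm a × Cm h} (hr : r.2 ∈ e.target) (hr' : e.symm r.2 ∈ e'.source) {l : Cm a}
    (hl : l ∈ Per Ψ) (U W : Cm a × Cm h) :
    asc2 S Ψ A e r U W = asc2 S Ψ A e' (tr e e' l r)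
      (U.1, fderiv ℂ (fun u => e' (e.symm u)) r.2 U.2)
      (W.1, fderiv ℂ (fun u => e' (e.symm u)) r.2 W.2) := by
  obtain ⟨j, θ, hθ⟩ := exists_sec hΨ he' (r := tr e e' l r) (e'.map_source hr')
  rw [asc2_eq hA hθ, asc2_eq hA (hθ.trans he hr hr' hl), sec_tr_fd he hr hr' hθ,
    sec_tr_fd he hr hr' hθ]

omit [IsManifold 𝓘(ℂ, Cm h) ω H] [ChartedSpace (Cm h) H] in
theorem fd_self {e : Chart h H} {w : Cm h} (hw : w ∈ e.target) (u : Cm h) :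
    fderiv ℂ (fun u => e (e.symm u)) w u = u := by
  have h1 : (fun u => e (e.symm u)) =ᶠ[𝓝 w] id := by
    filter_upwards [e.open_target.mem_nhds hw] with u hu
    exact e.right_inv hu
  rw [h1.fderiv_eq, fderiv_id]
  rfl

theorem asc1_pf [Subsingleton Γ] (hΨ : Cvr h S Ψ) {b : Fin S.N → Cm d → (Cm d →L[ℂ] ℂ)}
    (hb : FS1 S b) : PF1 (H := H) (Per Ψ) (asc1 (h := h) S Ψ b) where
  an e he z w hw := by
    obtain ⟨j, θ, hθ⟩ := exists_sec hΨ he (r := (z, w)) hw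
    exact (pb1_an (hb.an j _ hθ.bal) hθ.an).congr (asc1_ev hb hθ).symm
  closed e he z w hw := by
    obtain ⟨j, θ, hθ⟩ := exists_sec hΨ he (r := (z, w)) hw
    exact (pb1_cls (hb.an j _ hθ.bal) hθ.an (hb.cls j _ hθ.bal)).congr (asc1_ev hb hθ)
  change e he e' he' z x hx U := by
    have h1 := asc1_tr hΨ hb he he' (r := (z, e x)) (e.map_source hx.1)
      (by rw [e.left_inv hx.1]; exact hx.2) zero_per U
    rw [h1]
    simp only [tr, add_zero, e.left_inv hx.1]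
  per e he l hl z w hw := by
    refine ContinuousLinearMap.ext fun U => ?_
    rw [asc1_tr hΨ hb he he (r := (z, w)) hw (e.map_target hw) hl U, fd_self hw]
    simp only [tr, e.right_inv hw]

theorem asc2_pf [Subsingleton Γ] (hΨ : Cvr h S Ψ) {A : Fin S.N → Cm d → BL (Cm d)}
    (hA : FS2 S A) : PF2 (H := H) (Per Ψ) (asc2 (h := h) S Ψ A) where
  an e he z w hw := by
    obtain ⟨j, θ, hθ⟩ := exists_sec hΨ he (r := (z, w)) hw
    exact (pb2_an (hA.an j _ hθ.bal) hθ.an).congr (asc2_ev hA hθ).symm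
  alt e he z w hw U W := by
    obtain ⟨j, θ, hθ⟩ := exists_sec hΨ he (r := (z, w)) hw
    rw [asc2_eq hA hθ, asc2_eq hA hθ, hA.alt j _ hθ.bal]
  closed e he z w hw := by
    obtain ⟨j, θ, hθ⟩ := exists_sec hΨ he (r := (z, w)) hw
    exact (pb2_cls (hA.an j _ hθ.bal) hθ.an (hA.alt j _ hθ.bal) (hA.cls j _ hθ.bal)).congr
      (asc2_ev hA hθ)
  change e he e' he' z x hx U W := by
    have h1 := asc2_tr hΨ hA he he' (r := (z, e x)) (e.map_source hx.1)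
      (by rw [e.left_inv hx.1]; exact hx.2) zero_per U W
    rw [h1]
    simp only [tr, add_zero, e.left_inv hx.1]
  per e he l hl z w hw := by
    refine ContinuousLinearMap.ext fun U => ContinuousLinearMap.ext fun W => ?_
    rw [asc2_tr hΨ hA he he (r := (z, w)) hw (e.map_target hw) hl U W, fd_self hw, fd_self hw]
    simp only [tr, e.right_inv hw]

/-! ### From `ℂ^a × H` to the sheets -/

theorem desc1_eq (hd : d = a + h) (hΨ : Cvr h S Ψ)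
    {B : Chart h H → Cm a × Cm h → (Cm a × Cm h →L[ℂ] ℂ)} (hB : PF1 (Per Ψ) B) {j : Fin S.N}
    {z : Cm d} (hz : z ∈ ball (0 : Cm d) 3) {e : Chart h H} {κ : Cm d → Cm a × Cm h}
    (hκ : Lift S Ψ j z e κ) (U : Cm d) :
    desc1 S Ψ B j z U = B e (κ z) (fderiv ℂ κ z U) := by
  have hh : ∃ (e : Chart h H) (κ : Cm d → Cm a × Cm h), Lift S Ψ j z e κ := ⟨e, κ, hκ⟩
  unfold desc1
  rw [dif_pos hh]
  have h1 := hh.choose_spec.choose_spec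
  set e₁ := hh.choose
  set κ₁ := hh.choose_spec.choose
  obtain ⟨k1, l, hl, k2, k3⟩ := lift_change hd hΨ hz hκ h1
  rw [pb1_apply, k2, k3 U, tr, hB.per e₁ h1.mem l hl _ _ (e₁.map_source k1)]
  have h2 := hB.change e hκ.mem e₁ h1.mem (κ z).1 (e.symm (κ z).2)
    ⟨e.map_target hκ.tgt, k1⟩ (fderiv ℂ κ z U)
  rw [e.right_inv hκ.tgt] at h2
  rw [← h2]

theorem desc2_eq (hd : d = a + h) (hΨ : Cvr h S Ψ)
    {A : Chart h H → Cm a × Cm h → BL (Cm a × Cm h)} (hA : PF2 (Per Ψ) A) {j : Fin S.N}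
    {z : Cm d} (hz : z ∈ ball (0 : Cm d) 3) {e : Chart h H} {κ : Cm d → Cm a × Cm h}
    (hκ : Lift S Ψ j z e κ) (U W : Cm d) :
    desc2 S Ψ A j z U W = A e (κ z) (fderiv ℂ κ z U) (fderiv ℂ κ z W) := by
  have hh : ∃ (e : Chart h H) (κ : Cm d → Cm a × Cm h), Lift S Ψ j z e κ := ⟨e, κ, hκ⟩
  unfold desc2
  rw [dif_pos hh]
  have h1 := hh.choose_spec.choose_spec
  set e₁ := hh.choose
  set κ₁ := hh.choose_spec.choose
  obtain ⟨k1, l, hl, k2, k3⟩ := lift_change hd hΨ hz hκ h1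
  rw [pb2_apply, k2, k3 U, k3 W, tr, hA.per e₁ h1.mem l hl _ _ (e₁.map_source k1)]
  have h2 := hA.change e hκ.mem e₁ h1.mem (κ z).1 (e.symm (κ z).2)
    ⟨e.map_target hκ.tgt, k1⟩ (fderiv ℂ κ z U) (fderiv ℂ κ z W)
  rw [e.right_inv hκ.tgt] at h2
  rw [← h2]

omit [IsManifold 𝓘(ℂ, Cm h) ω H] in
theorem Lift.comp {i j : Fin S.N} {z : Cm d} {e : Chart h H} {κ : Cm d → Cm a × Cm h}
    {θ : Cm d → Cm d} (hκ : Lift S Ψ j (θ z) e κ) (hθ : AnalyticAt ℂ θ z)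
    (hσ : ∀ᶠ u in 𝓝 z, S.σ i u = S.σ j (θ u)) : Lift S Ψ i z e (fun v => κ (θ v)) where
  mem := hκ.mem
  an := AnalyticAt.fun_comp (g := κ) hκ.an hθ
  tgt := hκ.tgt
  eq := by
    filter_upwards [hθ.continuousAt.eventually hκ.eq, hσ] with v k1 k2
    rw [k1, k2]

omit [IsManifold 𝓘(ℂ, Cm h) ω H] in
theorem lift_fd {θ : Cm d → Cm d} {κ : Cm d → Cm a × Cm h} {z : Cm d}
    (hκ : AnalyticAt ℂ κ (θ z)) (hθ : AnalyticAt ℂ θ z) (U : Cm d) :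
    fderiv ℂ (fun v => κ (θ v)) z U = fderiv ℂ κ (θ z) (fderiv ℂ θ z U) := by
  have h1 : HasFDerivAt (fun v => κ (θ v)) ((fderiv ℂ κ (θ z)).comp (fderiv ℂ θ z)) z :=
    HasFDerivAt.comp (g := κ) z hκ.differentiableAt.hasFDerivAt hθ.differentiableAt.hasFDerivAt
  rw [h1.fderiv]
  rfl

theorem desc1_fs (hd : d = a + h) (hΨ : Cvr h S Ψ)
    {B : Chart h H → Cm a × Cm h → (Cm a × Cm h →L[ℂ] ℂ)} (hB : PF1 (Per Ψ) B) :
    FS1 S (desc1 S Ψ B) := by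
  have hev : ∀ (j : Fin S.N) (z : Cm d), z ∈ ball (0 : Cm d) 3 → ∀ (e : Chart h H)
      (κ : Cm d → Cm a × Cm h), Lift S Ψ j z e κ → desc1 S Ψ B j =ᶠ[𝓝 z] pb1 (B e) κ := by
    intro j z hz e κ hκ
    filter_upwards [hκ.ev, isOpen_ball.mem_nhds hz] with v k1 k2
    exact ContinuousLinearMap.ext fun U => desc1_eq hd hΨ hB k2 k1 U
  refine ⟨fun j z hz => ?_, fun j z hz => ?_, fun i j z hz z' hz' θ hθ hθz hσ U => ?_⟩
  · obtain ⟨e, κ, hκ⟩ := exists_lift hΨ j hz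
    exact (pb1_an (g := κ) (x := z) (hB.an e hκ.mem _ _ hκ.tgt) hκ.an).congr (hev j z hz e κ hκ).symm
  · obtain ⟨e, κ, hκ⟩ := exists_lift hΨ j hz
    exact (pb1_cls (g := κ) (x := z) (hB.an e hκ.mem _ _ hκ.tgt) hκ.an (hB.closed e hκ.mem _ _ hκ.tgt)).congr
      (hev j z hz e κ hκ)
  · subst hθz
    obtain ⟨e, κ, hκ⟩ := exists_lift hΨ j hz'
    rw [desc1_eq hd hΨ hB hz (hκ.comp hθ hσ), desc1_eq hd hΨ hB hz' hκ, lift_fd hκ.an hθ]

theorem desc2_fs (hd : d = a + h) (hΨ : Cvr h S Ψ)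
    {A : Chart h H → Cm a × Cm h → BL (Cm a × Cm h)} (hA : PF2 (Per Ψ) A) :
    FS2 S (desc2 S Ψ A) := by
  have hev : ∀ (j : Fin S.N) (z : Cm d), z ∈ ball (0 : Cm d) 3 → ∀ (e : Chart h H)
      (κ : Cm d → Cm a × Cm h), Lift S Ψ j z e κ → desc2 S Ψ A j =ᶠ[𝓝 z] pb2 (A e) κ := by
    intro j z hz e κ hκ
    filter_upwards [hκ.ev, isOpen_ball.mem_nhds hz] with v k1 k2
    exact ContinuousLinearMap.ext fun U => ContinuousLinearMap.ext fun W =>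
      desc2_eq hd hΨ hA k2 k1 U W
  refine ⟨fun j z hz => ?_, fun j z hz U W => ?_, fun j z hz => ?_,
    fun i j z hz z' hz' θ hθ hθz hσ U W => ?_⟩
  · obtain ⟨e, κ, hκ⟩ := exists_lift hΨ j hz
    exact (pb2_an (g := κ) (x := z) (hA.an e hκ.mem _ _ hκ.tgt) hκ.an).congr (hev j z hz e κ hκ).symm
  · obtain ⟨e, κ, hκ⟩ := exists_lift hΨ j hz
    rw [desc2_eq hd hΨ hA hz hκ, desc2_eq hd hΨ hA hz hκ]
    exact hA.alt e hκ.mem (κ z).1 (κ z).2 hκ.tgt _ _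
  · obtain ⟨e, κ, hκ⟩ := exists_lift hΨ j hz
    exact (pb2_cls (g := κ) (x := z) (hA.an e hκ.mem _ _ hκ.tgt) hκ.an (hA.alt e hκ.mem _ _ hκ.tgt)
      (hA.closed e hκ.mem _ _ hκ.tgt)).congr (hev j z hz e κ hκ)
  · subst hθz
    obtain ⟨e, κ, hκ⟩ := exists_lift hΨ j hz'
    rw [desc2_eq hd hΨ hA hz (hκ.comp hθ hσ), desc2_eq hd hΨ hA hz' hκ, lift_fd hκ.an hθ,
      lift_fd hκ.an hθ]

omit [IsManifold 𝓘(ℂ, Cm h) ω H] in
/-- A form on the sheets, through `ℂ^a × H`. -/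
theorem asc1_lift [Subsingleton Γ] (hΨ : Cvr h S Ψ) {b : Fin S.N → Cm d → (Cm d →L[ℂ] ℂ)}
    (hb : FS1 S b) {j : Fin S.N} {z : Cm d} (hz : z ∈ ball (0 : Cm d) 3) {e : Chart h H}
    {κ : Cm d → Cm a × Cm h} (hκ : Lift S Ψ j z e κ) (U : Cm d) :
    asc1 S Ψ b e (κ z) (fderiv ℂ κ z U) = b j z U := by
  obtain ⟨θ, hθ, hθz⟩ := exists_sec_at hΨ hz hκ
  rw [asc1_eq hb hθ, sec_lift_fd hz hκ hθ, hθz]

omit [IsManifold 𝓘(ℂ, Cm h) ω H] in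
theorem asc2_lift [Subsingleton Γ] (hΨ : Cvr h S Ψ) {A : Fin S.N → Cm d → BL (Cm d)}
    (hA : FS2 S A) {j : Fin S.N} {z : Cm d} (hz : z ∈ ball (0 : Cm d) 3) {e : Chart h H}
    {κ : Cm d → Cm a × Cm h} (hκ : Lift S Ψ j z e κ) (U W : Cm d) :
    asc2 S Ψ A e (κ z) (fderiv ℂ κ z U) (fderiv ℂ κ z W) = A j z U W := by
  obtain ⟨θ, hθ, hθz⟩ := exists_sec_at hΨ hz hκ
  rw [asc2_eq hA hθ, sec_lift_fd hz hκ hθ, sec_lift_fd hz hκ hθ, hθz]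

end

end Vale.Agent.P281.H702.HKT
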