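import Vale.Agent.P281.H702.HKT.Form

/-!
# P281, project T-HKT (helper702): the closed holomorphic 1- and 2-forms of `(ℂ^a × H) / Λ`
-/

open Set Filter Metric Vale.Agent.P272.K
open scoped Topology ContDiff Manifold

noncomputable section

set_option maxSynthPendingDepth 3

namespace Vale.Agent.P281.H702.HKT

open Vale.Agent.P281.H64.TK (jac dd Sheets)
open Vale.Agent.P281.H83.HK (IsHol2 Hol2 Sympl)
open Vale.Agent.P281.H83.HKT (Hol1 GenU dt uu)
open Vale.Agent.P281.H702.HK (mf mf_apply mf_alt mf_analytic mf_fd mf_closed B2 fd_dd)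
open Vale.Agent.P281.H702.Z

section mat
variable {a d : ℕ}

/-- The linear form of a row. -/
def rf (m : Matrix (Fin 1) (Fin d) ℂ) : Cm d →L[ℂ] ℂ :=
  ∑ k, m 0 k • ContinuousLinearMap.proj (R := ℂ) (φ := fun _ : Fin d => ℂ) k

theorem rf_apply (m : Matrix (Fin 1) (Fin d) ℂ) (u : Cm d) : rf m u = ∑ k, m 0 k * u k := by
  simp only [rf, sum_apply, smul_apply, ContinuousLinearMap.proj_apply, smul_eq_mul]

theorem rf_single (m : Matrix (Fin 1) (Fin d) ℂ) (k : Fin d) : rf m (Pi.single k 1) = m 0 k := by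
  rw [rf_apply, Finset.sum_eq_single k]
  · simp
  · intro b _ hb
    simp [Pi.single_eq_of_ne hb]
  · intro h
    exact absurd (Finset.mem_univ _) h

theorem mf_dot {n : ℕ} (m : Matrix (Fin n) (Fin n) ℂ) (u v : Cm n) :
    mf m u v = u ⬝ᵥ m.mulVec v := by
  rw [mf_apply]
  simp only [dotProduct, Matrix.mulVec, Finset.mul_sum]
  exact Finset.sum_congr rfl fun j _ => Finset.sum_congr rfl fun k _ => by ring

theorem mf_uu (m : Matrix (Fin a) (Fin a) ℂ) (u : Matrix (Fin a) (Fin d) ℂ) (U W : Cm d) :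
    mf (uu m u) U W = mf m (u.mulVec U) (u.mulVec W) := by
  rw [mf_dot, mf_dot, uu, ← Matrix.mulVec_mulVec, ← Matrix.mulVec_mulVec,
    Matrix.dotProduct_mulVec, Matrix.vecMul_transpose]

theorem mf_ext {m m' : Matrix (Fin d) (Fin d) ℂ} (h : ∀ U W, mf m U W = mf m' U W) : m = m' := by
  ext j k
  rw [← mf_single m j k, h, mf_single]

end mat

section
variable {d a h : ℕ} {M Γ H : Type} [TopologicalSpace M] [Group Γ] [MulAction Γ M]
  {S : Sheets d M Γ}

theorem fs1_of {v : Fin S.N → Cm d → Matrix (Fin 1) (Fin d) ℂ} (hv : Hol1 S v) :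
    FS1 S (fun i z => rf (v i z)) where
  an i z hz := by
    unfold rf
    exact Finset.analyticAt_fun_sum _ fun k _ =>
      (MF.analyticAt_of_differentiableOn isOpen_ball (hv.hol i 0 k) hz).smul analyticAt_const
  cls i z hz U W := by
    have hd : ∀ k, DifferentiableAt ℂ (fun z => v i z 0 k) z := fun k =>
      (hv.hol i 0 k).differentiableAt (isOpen_ball.mem_nhds hz)
    have h1 : HasFDerivAt (fun z => rf (v i z)) (∑ k, (fderiv ℂ (fun z => v i z 0 k) z).smulRight
        (ContinuousLinearMap.proj (R := ℂ) (φ := fun _ : Fin d => ℂ) k)) z := by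
      unfold rf
      exact HasFDerivAt.fun_sum fun k _ => (hd k).hasFDerivAt.smul_const _
    have h2 : ∀ U W : Cm d, fderiv ℂ (fun z => rf (v i z)) z U W =
        ∑ k, ∑ l, dd l (fun z => v i z 0 k) z * (U l * W k) := by
      intro U W
      rw [h1.fderiv]
      simp only [sum_apply, ContinuousLinearMap.smulRight_apply, smul_apply,
        ContinuousLinearMap.proj_apply, smul_eq_mul]
      refine Finset.sum_congr rfl fun k _ => ?_
      rw [fd_dd, Finset.sum_mul]
      exact Finset.sum_congr rfl fun l _ => by ring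
    rw [h2, h2, Finset.sum_comm]
    refine Finset.sum_congr rfl fun l _ => Finset.sum_congr rfl fun k _ => ?_
    rw [hv.closed i z hz 0 l k]
    ring
  change i j z hz z' hz' θ hθ hθz hσ U := by
    rw [rf_apply, rf_apply, hv.change i j z hz z' hz' θ hθ hθz hσ]
    simp only [Matrix.mul_apply, fd_jac, Finset.sum_mul, Finset.mul_sum]
    rw [Finset.sum_comm]
    exact Finset.sum_congr rfl fun l _ => Finset.sum_congr rfl fun k _ => by ring

theorem hol1_of {b : Fin a → Fin S.N → Cm d → (Cm d →L[ℂ] ℂ)} (hb : ∀ r, FS1 S (b r)) :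
    Hol1 S (fun i z => Matrix.of fun r l => b r i z (Pi.single l 1)) where
  hol i r l z hz := by
    have h1 := (((hb r).an i z hz).differentiableAt.hasFDerivAt.clm_apply
      (hasFDerivAt_const (Pi.single l (1 : ℂ) : Cm d) z)).differentiableAt
    exact h1.differentiableWithinAt
  closed i z hz r k l := by
    have h1 : ∀ k l, dd k (fun z => b r i z (Pi.single l 1)) z =
        fderiv ℂ (b r i) z (Pi.single k 1) (Pi.single l 1) := fun k l =>
      (fd_app ((hb r).an i z hz).differentiableAt _ _).symm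
    show dd k (fun z => b r i z (Pi.single l 1)) z = dd l (fun z => b r i z (Pi.single k 1)) z
    rw [h1, h1]
    exact (hb r).cls i z hz _ _
  change i j z hz z' hz' θ hθ hθz hσ := by
    ext r l
    show b r i z (Pi.single l 1) = _
    rw [(hb r).change i j z hz z' hz' θ hθ hθz hσ]
    conv_lhs => rw [pi_eq_sum_univ' (fderiv ℂ θ z (Pi.single l 1))]
    rw [map_sum, Matrix.mul_apply]
    refine Finset.sum_congr rfl fun m _ => ?_
    rw [map_smul, smul_eq_mul, mul_comm]
    rfl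

theorem fs2_of {s : Fin S.N → Cm d → Matrix (Fin d) (Fin d) ℂ} (hs : Hol2 S s) :
    FS2 S (fun i z => mf (s i z)) where
  an i z hz := mf_analytic fun j k =>
    MF.analyticAt_of_differentiableOn isOpen_ball (hs.hol i j k) hz
  alt i z hz U W := mf_alt (hs.alt i z hz) U W
  cls i z hz := mf_closed (fun j k => (hs.hol i j k).differentiableAt (isOpen_ball.mem_nhds hz))
    (hs.closed i z hz)
  change i j z hz z' hz' θ hθ hθz hσ U W := by
    rw [hs.change i j z hz z' hz' θ hθ hθz hσ,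
      H702.HK.mf_change (fd_jac θ z U) (fd_jac θ z W)]

theorem hol2S_of {A : Fin S.N → Cm d → BL (Cm d)} (hA : FS2 S A) :
    Hol2 S (fun i z => mt (A i z)) where
  hol i j k z hz := (mt_diff (hA.an i z hz).differentiableAt j k).differentiableWithinAt
  alt i z hz := mt_alt (hA.alt i z hz)
  closed i z hz j k l := mt_closed (hA.an i z hz).differentiableAt (hA.cls i z hz) j k l
  change i j z hz z' hz' θ hθ hθz hσ := mt_change (hA.change i j z hz z' hz' θ hθ hθz hσ)

end

section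
variable {d a h : ℕ} {M Γ H : Type} [TopologicalSpace M] [Group Γ] [MulAction Γ M]
  [TopologicalSpace H] [ChartedSpace (Cm h) H] {S : Sheets d M Γ} {Ψ : Cm a × H → M}

variable (H h) in
/-- The form `dz_r` on `ℂ^a × H`. -/
def dzB (r : Fin a) (_ : Chart h H) (_ : Cm a × Cm h) : Cm a × Cm h →L[ℂ] ℂ :=
  (ContinuousLinearMap.proj (R := ℂ) (φ := fun _ : Fin a => ℂ) r).comp
    (ContinuousLinearMap.fst ℂ (Cm a) (Cm h))

theorem dzB_pf (L : Set (Cm a)) (r : Fin a) : PF1 (H := H) L (dzB h H r) where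
  an e he z w hw := analyticAt_const
  closed e he z w hw U W := by
    have h1 : fderiv ℂ (dzB h H r e) (z, w) = 0 := (hasFDerivAt_const _ _).fderiv
    rw [h1]
    rfl
  change e he e' he' z x hx U := rfl
  per e he l hl z w hw := rfl

/-- The form of `H` on `ℂ^a × H`. -/
def sgA (sg : Chart h H → Cm h → Matrix (Fin h) (Fin h) ℂ) (e : Chart h H) :
    Cm a × Cm h → BL (Cm a × Cm h) := pb2 (fun w => mf (sg e w)) Prod.snd

omit [ChartedSpace (Cm h) H] in
theorem sgA_apply (sg : Chart h H → Cm h → Matrix (Fin h) (Fin h) ℂ) (e : Chart h H)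
    (q U W : Cm a × Cm h) : sgA sg e q U W = mf (sg e q.2) U.2 W.2 := by
  rw [sgA, pb2_apply, fderiv_snd]
  rfl

theorem sg_an {sg : Chart h H → Cm h → Matrix (Fin h) (Fin h) ℂ} (hs : IsHol2 sg)
    {e : Chart h H} (he : e ∈ atlas (Cm h) H) {w : Cm h} (hw : w ∈ e.target) :
    AnalyticAt ℂ (fun w => mf (sg e w)) w :=
  mf_analytic fun j k => MF.analyticAt_of_differentiableOn e.open_target (hs.hol e he j k) hw

theorem sg_cls {sg : Chart h H → Cm h → Matrix (Fin h) (Fin h) ℂ} (hs : IsHol2 sg)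
    {e : Chart h H} (he : e ∈ atlas (Cm h) H) {w : Cm h} (hw : w ∈ e.target) :
    Cls2 (fun w => mf (sg e w)) w :=
  mf_closed (fun j k => (hs.hol e he j k).differentiableAt (e.open_target.mem_nhds hw))
    (hs.closed e he w hw)

theorem snd_an {X Y : Type*} [NormedAddCommGroup X] [NormedSpace ℂ X] [NormedAddCommGroup Y]
    [NormedSpace ℂ Y] [CompleteSpace Y] {A : Y → BL Y} {r : X × Y} (hA : AnalyticAt ℂ A r.2) :
    AnalyticAt ℂ (pb2 A (Prod.snd : X × Y → Y)) r := pb2_an hA analyticAt_snd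

theorem snd_cls {X Y : Type*} [NormedAddCommGroup X] [NormedSpace ℂ X] [NormedAddCommGroup Y]
    [NormedSpace ℂ Y] [CompleteSpace Y] {A : Y → BL Y} {r : X × Y} (hA : AnalyticAt ℂ A r.2)
    (alt : ∀ u v, A r.2 u v = -A r.2 v u) (h : Cls2 A r.2) :
    Cls2 (pb2 A (Prod.snd : X × Y → Y)) r := pb2_cls hA analyticAt_snd alt h

theorem sgA_an {sg : Chart h H → Cm h → Matrix (Fin h) (Fin h) ℂ} (hs : IsHol2 sg)
    {e : Chart h H} (he : e ∈ atlas (Cm h) H) {r : Cm a × Cm h} (hw : r.2 ∈ e.target) :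
    AnalyticAt ℂ (sgA sg e) r := by
  unfold sgA
  have h1 := sg_an hs he hw
  have h2 := snd_an (X := Cm a) (A := fun w => mf (sg e w)) (r := r) h1
  exact h2

theorem sgA_cls {sg : Chart h H → Cm h → Matrix (Fin h) (Fin h) ℂ} (hs : IsHol2 sg)
    {e : Chart h H} (he : e ∈ atlas (Cm h) H) {r : Cm a × Cm h} (hw : r.2 ∈ e.target) :
    Cls2 (sgA sg e) r := by
  unfold sgA
  have h1 := sg_an hs he hw
  have h2 := sg_cls hs he hw
  have h3 := snd_cls (X := Cm a) (A := fun w => mf (sg e w)) (r := r) h1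
    (mf_alt (hs.alt e he r.2 hw)) h2
  exact h3

theorem sgA_pf (L : Set (Cm a)) {sg : Chart h H → Cm h → Matrix (Fin h) (Fin h) ℂ}
    (hs : IsHol2 sg) : PF2 L (sgA sg) := by
  refine ⟨fun e he z w hw => sgA_an (r := (z, w)) hs he hw, fun e he z w hw U W => ?_,
    fun e he z w hw => sgA_cls (r := (z, w)) hs he hw, fun e he e' he' z x hx U W => ?_,
    fun e he l hl z w hw => ?_⟩
  · rw [sgA_apply, sgA_apply]
    exact mf_alt (hs.alt e he w hw) _ _
  · rw [sgA_apply, sgA_apply]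
    show mf (sg e (e x)) U.2 W.2 = mf (sg e' (e' x)) _ _
    rw [hs.change e he e' he' x hx,
      H702.HK.mf_change (fd_jac (fun u => e' (e.symm u)) (e x) U.2)
        (fd_jac (fun u => e' (e.symm u)) (e x) W.2)]
  · refine ContinuousLinearMap.ext fun U => ContinuousLinearMap.ext fun W => ?_
    rw [sgA_apply, sgA_apply]

/-- The 1-forms of the quotient. -/
def uM (h : ℕ) {H : Type} [TopologicalSpace H] [ChartedSpace (Cm h) H] (S : Sheets d M Γ)
    (Ψ : Cm a × H → M) (j : Fin S.N) (z : Cm d) : Matrix (Fin a) (Fin d) ℂ :=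
  Matrix.of fun r l => desc1 S Ψ (dzB h H r) j z (Pi.single l 1)

/-- The 2-form of the quotient. -/
def sM (S : Sheets d M Γ) (Ψ : Cm a × H → M) (sg : Chart h H → Cm h → Matrix (Fin h) (Fin h) ℂ)
    (j : Fin S.N) (z : Cm d) : Matrix (Fin d) (Fin d) ℂ := mt (desc2 S Ψ (sgA sg) j z)

variable [IsManifold 𝓘(ℂ, Cm h) ω H]

theorem uM_mulVec (hd : d = a + h) (hΨ : Cvr h S Ψ) {j : Fin S.N} {z : Cm d}
    (hz : z ∈ ball (0 : Cm d) 3) {e : Chart h H} {κ : Cm d → Cm a × Cm h}
    (hκ : Lift S Ψ j z e κ) (U : Cm d) :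
    (uM h S Ψ j z).mulVec U = (fderiv ℂ κ z U).1 := by
  funext r
  have h1 : desc1 S Ψ (dzB h H r) j z U = (fderiv ℂ κ z U).1 r := by
    rw [desc1_eq hd hΨ (dzB_pf _ r) hz hκ]
    rfl
  rw [← h1]
  conv_rhs => rw [pi_eq_sum_univ' U]
  rw [map_sum]
  simp only [Matrix.mulVec, dotProduct, uM, Matrix.of_apply, map_smul, smul_eq_mul]
  exact Finset.sum_congr rfl fun l _ => mul_comm _ _

theorem sM_mf (hd : d = a + h) (hΨ : Cvr h S Ψ)
    {sg : Chart h H → Cm h → Matrix (Fin h) (Fin h) ℂ} (hs : IsHol2 sg) {j : Fin S.N} {z : Cm d}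
    (hz : z ∈ ball (0 : Cm d) 3) {e : Chart h H} {κ : Cm d → Cm a × Cm h}
    (hκ : Lift S Ψ j z e κ) (U W : Cm d) :
    mf (sM S Ψ sg j z) U W = mf (sg e (κ z).2) (fderiv ℂ κ z U).2 (fderiv ℂ κ z W).2 := by
  rw [sM, mf_mt, desc2_eq hd hΨ (sgA_pf _ hs) hz hκ, sgA_apply]

omit [IsManifold 𝓘(ℂ, Cm h) ω H] in
theorem coco_of (hΨ : Cvr h S Ψ) : Coco (Per Ψ) := hΨ.cpt

/-- The closed holomorphic 1- and 2-forms of the quotient of `ℂ^a × H` by a lattice. -/
theorem genM (hd : d = a + h) [CompactSpace H] [SimplyConnectedSpace H] [Subsingleton Γ]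
    (hΨ : Cvr h S Ψ) {sg : Chart h H → Cm h → Matrix (Fin h) (Fin h) ℂ} (hs : IsHol2 sg)
    (hne : ∃ e ∈ atlas (Cm h) H, ∃ u ∈ e.target, (sg e u).det ≠ 0)
    (huniq : ∀ s' : Chart h H → Cm h → Matrix (Fin h) (Fin h) ℂ, IsHol2 s' → ∃ c : ℂ,
      ∀ e ∈ atlas (Cm h) H, ∀ u ∈ e.target, s' e u = c • sg e u) :
    GenU S (uM h S Ψ) (sM S Ψ sg) where
  one := hol1_of fun r => desc1_fs hd hΨ (dzB_pf _ r)
  form := hol2S_of (desc2_fs hd hΨ (sgA_pf _ hs))
  ne := by
    obtain ⟨e, he, w, hw, hdet⟩ := hne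
    obtain ⟨γ, j, z, hz, hσ⟩ := S.cover (Ψ (0, e.symm w))
    rw [Subsingleton.elim γ 1, one_smul] at hσ
    have hz' : z ∈ ball (0 : Cm d) 3 := by
      rw [mem_ball_zero_iff]
      linarith
    obtain ⟨κ, θ, h1, h2, -, -, h5, -⟩ := hΨ.loc j z hz' (0, e.symm w) hσ.symm e he
      (e.map_target hw)
    simp only [e.right_inv hw] at h2
    have hκ : Lift S Ψ j z e κ := ⟨he, h1, by rw [h2]; exact hw, h5⟩
    refine ⟨j, z, hz', fun h0 => ?_⟩
    obtain ⟨θ', hθ', -⟩ := exists_sec_at hΨ hz' hκ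
    have hinv := sec_lift_fd hz' hκ hθ'
    have hsur := (inj_of hd hinv).2
    obtain ⟨x, hx0, hx⟩ := Matrix.exists_mulVec_eq_zero_iff.2 h0
    set p : Cm d := fun k => x (Sum.inl k) with hp
    set y : Cm a := fun k => x (Sum.inr k) with hy
    have hxe : x = Sum.elim p y := by
      funext k
      cases k <;> rfl
    rw [hxe, Matrix.fromBlocks_mulVec] at hx
    have e1 : (sM S Ψ sg j z).mulVec p + (uM h S Ψ j z).transpose.mulVec y = 0 := by
      funext k
      exact congrFun hx (Sum.inl k)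
    have e2 : (uM h S Ψ j z).mulVec p = 0 := by
      funext k
      have := congrFun hx (Sum.inr k)
      simpa [Matrix.neg_mulVec] using this
    rw [uM_mulVec hd hΨ hz' hκ] at e2
    have e3 : ∀ U, mf (sg e (κ z).2) (fderiv ℂ κ z U).2 (fderiv ℂ κ z p).2 +
        (fderiv ℂ κ z U).1 ⬝ᵥ y = 0 := by
      intro U
      have h6 := congrArg (fun t => U ⬝ᵥ t) e1
      simp only [dotProduct_add, dotProduct_zero] at h6
      rw [← mf_dot, sM_mf hd hΨ hs hz' hκ, Matrix.dotProduct_mulVec, Matrix.vecMul_transpose,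
        uM_mulVec hd hΨ hz' hκ] at h6
      exact h6
    have e4 : (fderiv ℂ κ z p).2 = 0 := by
      have h7 : (sg e (κ z).2).mulVec (fderiv ℂ κ z p).2 = 0 := by
        funext k
        obtain ⟨U, hU⟩ := hsur ((0 : Cm a), (Pi.single k (1 : ℂ) : Cm h))
        have h8 := e3 U
        rw [hU, mf_dot] at h8
        simpa using h8
      by_contra h8
      have h9 := Matrix.exists_mulVec_eq_zero_iff.1 ⟨_, h8, h7⟩
      rw [h2] at h9
      exact hdet h9
    have e5 : p = 0 := by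
      rw [← hinv p, Prod.ext (x := fderiv ℂ κ z p) (y := 0) e2 e4, map_zero]
    have e6 : y = 0 := by
      funext k
      obtain ⟨U, hU⟩ := hsur ((Pi.single k (1 : ℂ) : Cm a), (0 : Cm h))
      have h8 := e3 U
      rw [hU, map_zero, zero_apply, zero_add] at h8
      simpa using h8
    apply hx0
    rw [hxe, e5, e6]
    funext k
    cases k <;> rfl
  span1 v hv := by
    obtain ⟨c, hc⟩ := pf1_form (asc1_pf hΨ (fs1_of hv)) (coco_of hΨ)
    refine ⟨Matrix.of fun _ i => c i, fun j z hz => ?_⟩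
    obtain ⟨e, κ, hκ⟩ := exists_lift hΨ j hz
    ext r l
    rw [Subsingleton.elim r 0, ← rf_single (v j z) l]
    have h1 := asc1_lift hΨ (fs1_of hv) hz hκ (Pi.single l 1)
    rw [← h1, hc e hκ.mem (κ z).1 (κ z).2 hκ.tgt, Matrix.mul_apply]
    refine Finset.sum_congr rfl fun i _ => ?_
    have h2 := congrFun (uM_mulVec hd hΨ hz hκ (Pi.single l 1)) i
    rw [← h2, Matrix.of_apply]
    simp
  span2 s' hs' := by
    obtain ⟨c, C, hC, hc⟩ := pf2_form (asc2_pf hΨ (fs2_of hs')) (coco_of hΨ) hne huniq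
    refine ⟨c, C, hC, fun j z hz => ?_⟩
    obtain ⟨e, κ, hκ⟩ := exists_lift hΨ j hz
    refine mf_ext fun U W => ?_
    have h1 := asc2_lift hΨ (fs2_of hs') hz hκ U W
    have h3 : mf (c • sM S Ψ sg j z + uu C (uM h S Ψ j z)) U W =
        c * mf (sM S Ψ sg j z) U W + mf (uu C (uM h S Ψ j z)) U W := by
      rw [mf_dot, mf_dot, mf_dot, Matrix.add_mulVec, Matrix.smul_mulVec, dotProduct_add,
        dotProduct_smul, smul_eq_mul]
    rw [h3, mf_uu, uM_mulVec hd hΨ hz hκ, uM_mulVec hd hΨ hz hκ, sM_mf hd hΨ hs hz hκ, ← h1]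
    exact hc e hκ.mem (κ z).1 (κ z).2 hκ.tgt _ _

/-- **The closed holomorphic 1- and 2-forms of a quotient of `ℂ^a × H`.** -/
theorem genU (hd : d = a + h) [CompactSpace H] [SimplyConnectedSpace H] [Subsingleton Γ]
    (hΨ : Cvr h S Ψ) (hH : Sympl h H) :
    ∃ (u : Fin S.N → Cm d → Matrix (Fin a) (Fin d) ℂ)
      (s : Fin S.N → Cm d → Matrix (Fin d) (Fin d) ℂ), GenU S u s := by
  obtain ⟨sg, h1, h2, h3⟩ := hH
  exact ⟨_, _, genM hd hΨ h1 h2 h3⟩

end

end Vale.Agent.P281.H702.HKT
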