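import Vale.Agent.P281.H702.HKT.SecC

/-!
# P281, project T-HKT, class C (helper702): `GenU` for modifications of quotients of `ℂ^a × H`
-/

open Set Filter Metric Vale.Agent.P281 Vale.Agent.P272.K
open scoped Topology ContDiff Manifold

noncomputable section

set_option maxSynthPendingDepth 3

namespace Vale.Agent.P281.H702.HKT

open Vale.Agent.P281.H64.TK (jac dd Sheets)
open Vale.Agent.P281.H191.RC (Sml2 PsiT)
open Vale.Agent.P281.H399.QT (Qs One1 pj quo pj_smul pj_eq)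
open Vale.Agent.P281.H83.HK (IsHol2 Hol2 Sympl)
open Vale.Agent.P281.H83.HKT (Hol1 GenU dt uu dF)
open Vale.Agent.P281.H702.HK (mf mf_apply mf_alt mf_analytic mf_fd mf_closed B2 fd_dd)
open Vale.Agent.P281.H702.Z

/-! ### The determinant -/

theorem dt_ne {d a h : ℕ} {u : Matrix (Fin a) (Fin d) ℂ} {s : Matrix (Fin d) (Fin d) ℂ}
    {sg : Matrix (Fin h) (Fin h) ℂ} {D : Cm d →L[ℂ] Cm a × Cm h} (hinj : Function.Injective D)
    (hsur : Function.Surjective D) (hu : ∀ U, u.mulVec U = (D U).1)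
    (hs : ∀ U W, mf s U W = mf sg (D U).2 (D W).2) (hsg : sg.det ≠ 0) : dt u s ≠ 0 := by
  intro h0
  obtain ⟨x, hx0, hx⟩ := Matrix.exists_mulVec_eq_zero_iff.2 h0
  set p : Cm d := fun k => x (Sum.inl k) with hp
  set y : Cm a := fun k => x (Sum.inr k) with hy
  have hxe : x = Sum.elim p y := by
    funext k
    cases k <;> rfl
  rw [hxe, Matrix.fromBlocks_mulVec] at hx
  have e1 : s.mulVec p + u.transpose.mulVec y = 0 := by
    funext k
    exact congrFun hx (Sum.inl k)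
  have e2 : u.mulVec p = 0 := by
    funext k
    have := congrFun hx (Sum.inr k)
    simpa [Matrix.neg_mulVec] using this
  rw [hu] at e2
  have e3 : ∀ U, mf sg (D U).2 (D p).2 + (D U).1 ⬝ᵥ y = 0 := by
    intro U
    have h6 := congrArg (fun t => U ⬝ᵥ t) e1
    simp only [dotProduct_add, dotProduct_zero] at h6
    rw [← mf_dot, hs, Matrix.dotProduct_mulVec, Matrix.vecMul_transpose, hu] at h6
    exact h6
  have e4 : (D p).2 = 0 := by
    have h7 : sg.mulVec (D p).2 = 0 := by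
      funext k
      obtain ⟨U, hU⟩ := hsur ((0 : Cm a), (Pi.single k (1 : ℂ) : Cm h))
      have h8 := e3 U
      rw [hU, mf_dot] at h8
      simpa using h8
    by_contra h8
    exact hsg (Matrix.exists_mulVec_eq_zero_iff.1 ⟨_, h8, h7⟩)
  have e5 : p = 0 := by
    apply hinj
    rw [map_zero]
    exact Prod.ext e2 e4
  have e6 : y = 0 := by
    funext k
    obtain ⟨U, hU⟩ := hsur ((Pi.single k (1 : ℂ) : Cm a), (0 : Cm h))
    have h8 := e3 U
    rw [hU, map_zero, zero_apply, zero_add] at h8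
    simpa using h8
  apply hx0
  rw [hxe, e5, e6]
  funext k
  cases k <;> rfl

section
variable {d a h : ℕ} {E K H : Type} [TopologicalSpace E] [Group K] [MulAction K E]
  [ContinuousConstSMul K E] [TopologicalSpace H] [ChartedSpace (Cm h) H] {S : Sheets d E K}
  {ψ : E → Cm a × H} {l : K → Cm a} {A : Set (Cm a × H)}

/-- One group element. -/
theorem one_lift {i j : Fin S.N} {z z' : Cm d} (hz : z ∈ ball (0 : Cm d) 3)
    (hz' : z' ∈ ball (0 : Cm d) 3) {θ : Cm d → Cm d} (hθ : AnalyticAt ℂ θ z) (hθz : θ z = z')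
    (hσ : ∀ᶠ u in 𝓝 z, (quo S).σ i u = (quo S).σ j (θ u)) :
    ∃ γ : K, ∀ᶠ u in 𝓝 z, S.σ i u = γ • S.σ j (θ u) := by
  have h1 : pj K (S.σ i z) = pj K (S.σ j z') := by
    have := hσ.self_of_nhds
    rw [hθz] at this
    exact this
  obtain ⟨γ, hγ⟩ := pj_eq.1 h1
  obtain ⟨θ', k1, k2, k3⟩ := S.hol i j z hz z' hz' γ hγ.symm
  refine ⟨γ, ?_⟩
  have e1 : ∀ᶠ u in 𝓝 z, θ u ∈ ball (0 : Cm d) 3 :=
    hθ.continuousAt.eventually (isOpen_ball.mem_nhds (by rw [hθz]; exact hz'))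
  have e2 : ∀ᶠ u in 𝓝 z, θ' u ∈ ball (0 : Cm d) 3 :=
    k1.continuousAt.eventually (isOpen_ball.mem_nhds (by rw [k2]; exact hz'))
  filter_upwards [k3, hσ, e1, e2] with u a1 a2 a3 a4
  have a5 : (quo S).σ j (θ' u) = (quo S).σ j (θ u) := by
    rw [← a2]
    show pj K (S.σ j (θ' u)) = pj K (S.σ i u)
    rw [a1, pj_smul]
  have a6 := ((quo S).inj j _ a4 _ a3 1 (by rw [one_smul]; exact a5)).2
  rw [a1, a6]

variable [IsManifold 𝓘(ℂ, Cm h) ω H]

omit [ContinuousConstSMul K E] in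
/-- Change of the chart. -/
theorem kp_chart (hP : PsiT (h := h) S ψ l A) {j : Fin S.N} {z : Cm d}
    (hz : z ∈ ball (0 : Cm d) 3) {e e' : Chart h H} (he : e ∈ atlas (Cm h) H)
    (he' : e' ∈ atlas (Cm h) H) (hs : (ψ (S.σ j z)).2 ∈ e.source)
    (hs' : (ψ (S.σ j z)).2 ∈ e'.source) (U : Cm d) :
    fderiv ℂ (kp S ψ e' j) z U = ((fderiv ℂ (kp S ψ e j) z U).1,
      fderiv ℂ (fun u => e' (e.symm u)) (e (ψ (S.σ j z)).2) (fderiv ℂ (kp S ψ e j) z U).2) := by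
  have h1 : kp S ψ e' j =ᶠ[𝓝 z] fun v => tr e e' 0 (kp S ψ e j v) := by
    filter_upwards [src_ev hP hz hs] with v hv
    show ((ψ (S.σ j v)).1, e' (ψ (S.σ j v)).2) =
      ((ψ (S.σ j v)).1 + 0, e' (e.symm (e (ψ (S.σ j v)).2)))
    rw [e.left_inv hv, add_zero]
  have h2 : (kp S ψ e j z).2 ∈ e.target := e.map_source hs
  have h3 : e.symm (kp S ψ e j z).2 ∈ e'.source := by
    show e.symm (e (ψ (S.σ j z)).2) ∈ e'.source
    rw [e.left_inv hs]
    exact hs'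
  have h4 : AnalyticAt ℂ (kp S ψ e j) z := hP.hol j z hz e he hs
  have h5 : HasFDerivAt (fun v => tr e e' 0 (kp S ψ e j v))
      ((fderiv ℂ (tr e e' 0) (kp S ψ e j z)).comp (fderiv ℂ (kp S ψ e j) z)) z :=
    HasFDerivAt.comp (g := tr e e' 0) z
      (tr_an' he he' h2 h3 0).differentiableAt.hasFDerivAt h4.differentiableAt.hasFDerivAt
  rw [h1.fderiv_eq, h5.fderiv, ContinuousLinearMap.comp_apply, tr_fd he he' h2 h3]
  rfl

omit [ContinuousConstSMul K E] [IsManifold 𝓘(ℂ, Cm h) ω H] in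
/-- Change of the sheet. -/
theorem kp_sheet (hP : PsiT (h := h) S ψ l A) {i j : Fin S.N} {z z' : Cm d}
    (hz' : z' ∈ ball (0 : Cm d) 3) {θ : Cm d → Cm d} (hθ : AnalyticAt ℂ θ z) (hθz : θ z = z')
    {γ : K} (hγ : ∀ᶠ u in 𝓝 z, S.σ i u = γ • S.σ j (θ u)) {e : Chart h H}
    (he : e ∈ atlas (Cm h) H) (hs : (ψ (S.σ j z')).2 ∈ e.source) :
    (ψ (S.σ i z)).2 = (ψ (S.σ j z')).2 ∧
    (ψ (S.σ i z)).1 = (ψ (S.σ j z')).1 + l γ ∧
    ∀ U, fderiv ℂ (kp S ψ e i) z U = fderiv ℂ (kp S ψ e j) z' (fderiv ℂ θ z U) := by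
  have h0 : ψ (S.σ i z) = ((ψ (S.σ j z')).1 + l γ, (ψ (S.σ j z')).2) := by
    rw [hγ.self_of_nhds, hP.eqv, hθz]
  refine ⟨by rw [h0], by rw [h0], fun U => ?_⟩
  have h1 : kp S ψ e i =ᶠ[𝓝 z] fun v => kp S ψ e j (θ v) + (l γ, 0) := by
    filter_upwards [hγ] with v hv
    refine Prod.ext ?_ ?_
    · show (ψ (S.σ i v)).1 = (ψ (S.σ j (θ v))).1 + l γ
      rw [hv, hP.eqv]
    · show e (ψ (S.σ i v)).2 = e (ψ (S.σ j (θ v))).2 + 0
      rw [hv, hP.eqv, add_zero]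
  subst hθz
  have h4 : AnalyticAt ℂ (kp S ψ e j) (θ z) := hP.hol j _ hz' e he hs
  have h5 : HasFDerivAt (fun v => kp S ψ e j (θ v) + (l γ, 0))
      ((fderiv ℂ (kp S ψ e j) (θ z)).comp (fderiv ℂ θ z)) z :=
    (HasFDerivAt.comp (g := kp S ψ e j) z h4.differentiableAt.hasFDerivAt
      hθ.differentiableAt.hasFDerivAt).add_const _
  rw [h1.fderiv_eq, h5.fderiv]
  rfl

/-- The pull-back of a periodic 2-form of `ℂ^a × H`. -/
def up2 (S : Sheets d E K) (ψ : E → Cm a × H) (B : Chart h H → Cm a × Cm h → BL (Cm a × Cm h))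
    (j : Fin S.N) (z : Cm d) : BL (Cm d) :=
  pb2 (B (chartAt (Cm h) (ψ (S.σ j z)).2)) (kp S ψ (chartAt (Cm h) (ψ (S.σ j z)).2) j) z

omit [ContinuousConstSMul K E] in
theorem up2_eq {L : Set (Cm a)} (hP : PsiT (h := h) S ψ l A)
    {B : Chart h H → Cm a × Cm h → BL (Cm a × Cm h)} (hB : PF2 L B) {j : Fin S.N} {z : Cm d}
    (hz : z ∈ ball (0 : Cm d) 3) {e : Chart h H} (he : e ∈ atlas (Cm h) H)
    (hs : (ψ (S.σ j z)).2 ∈ e.source) (U W : Cm d) :
    up2 S ψ B j z U W =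
      B e (kp S ψ e j z) (fderiv ℂ (kp S ψ e j) z U) (fderiv ℂ (kp S ψ e j) z W) := by
  set e₁ := chartAt (Cm h) (ψ (S.σ j z)).2 with he₁
  have he₁a : e₁ ∈ atlas (Cm h) H := chart_mem_atlas _ _
  have hs₁ : (ψ (S.σ j z)).2 ∈ e₁.source := mem_chart_source _ _
  unfold up2
  rw [← he₁, pb2_apply, kp_chart hP hz he he₁a hs hs₁, kp_chart hP hz he he₁a hs hs₁]
  exact (hB.change e he e₁ he₁a (ψ (S.σ j z)).1 (ψ (S.σ j z)).2 ⟨hs, hs₁⟩ _ _).symm

theorem up2_fs (hP : PsiT (h := h) S ψ l A)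
    {B : Chart h H → Cm a × Cm h → BL (Cm a × Cm h)} (hB : PF2 (LK l) B) :
    FS2 (quo S) (up2 S ψ B) := by
  have hev : ∀ (j : Fin S.N) (z : Cm d), z ∈ ball (0 : Cm d) 3 → ∀ e ∈ atlas (Cm h) H,
      (ψ (S.σ j z)).2 ∈ e.source → up2 S ψ B j =ᶠ[𝓝 z] pb2 (B e) (kp S ψ e j) := by
    intro j z hz e he hs
    filter_upwards [src_ev hP hz hs, isOpen_ball.mem_nhds hz] with v k1 k2
    exact ContinuousLinearMap.ext fun U => ContinuousLinearMap.ext fun W =>
      up2_eq hP hB k2 he k1 U W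
  have key : ∀ (i j : Fin S.N) (z : Cm d), z ∈ ball (0 : Cm d) 3 → ∀ z' ∈ ball (0 : Cm d) 3,
      ∀ θ : Cm d → Cm d, AnalyticAt ℂ θ z → θ z = z' → ∀ γ : K,
      (∀ᶠ u in 𝓝 z, S.σ i u = γ • S.σ j (θ u)) → ∀ U W : Cm d,
      up2 S ψ B i z U W = up2 S ψ B j z' (fderiv ℂ θ z U) (fderiv ℂ θ z W) := by
    intro i j z hz z' hz' θ hθ hθz γ hγ U W
    set e := chartAt (Cm h) (ψ (S.σ j z')).2 with hed
    have he : e ∈ atlas (Cm h) H := chart_mem_atlas _ _
    have hs : (ψ (S.σ j z')).2 ∈ e.source := mem_chart_source _ _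
    obtain ⟨k1, k2, k3⟩ := kp_sheet hP hz' hθ hθz hγ he hs
    rw [up2_eq hP hB hz he (by rw [k1]; exact hs), up2_eq hP hB hz' he hs, k3, k3]
    have k4 : kp S ψ e i z = ((ψ (S.σ j z')).1 + l γ, e (ψ (S.σ j z')).2) := by
      refine Prod.ext k2 ?_
      show e (ψ (S.σ i z)).2 = _
      rw [k1]
    rw [k4, hB.per e he (l γ) ⟨γ, rfl⟩ _ _ (e.map_source hs)]
    rfl
  refine ⟨fun j z hz => ?_, fun j z hz U W => ?_, fun j z hz => ?_,
    fun i j z hz z' hz' θ hθ hθz hσ U W => ?_⟩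
  · set e := chartAt (Cm h) (ψ (S.σ j z)).2 with hed
    have he : e ∈ atlas (Cm h) H := chart_mem_atlas _ _
    have hs : (ψ (S.σ j z)).2 ∈ e.source := mem_chart_source _ _
    exact (pb2_an (g := kp S ψ e j) (x := z) (hB.an e he _ _ (e.map_source hs))
      (hP.hol j z hz e he hs)).congr (hev j z hz e he hs).symm
  · set e := chartAt (Cm h) (ψ (S.σ j z)).2 with hed
    have he : e ∈ atlas (Cm h) H := chart_mem_atlas _ _
    have hs : (ψ (S.σ j z)).2 ∈ e.source := mem_chart_source _ _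
    rw [up2_eq hP hB hz he hs, up2_eq hP hB hz he hs]
    exact hB.alt e he _ _ (e.map_source hs) _ _
  · set e := chartAt (Cm h) (ψ (S.σ j z)).2 with hed
    have he : e ∈ atlas (Cm h) H := chart_mem_atlas _ _
    have hs : (ψ (S.σ j z)).2 ∈ e.source := mem_chart_source _ _
    exact (pb2_cls (g := kp S ψ e j) (x := z) (hB.an e he _ _ (e.map_source hs))
      (hP.hol j z hz e he hs) (hB.alt e he _ _ (e.map_source hs))
      (hB.closed e he _ _ (e.map_source hs))).congr (hev j z hz e he hs)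
  · obtain ⟨γ, hγ⟩ := one_lift hz hz' hθ hθz hσ
    exact key i j z hz z' hz' θ hθ hθz γ hγ U W

omit [ContinuousConstSMul K E] [IsManifold 𝓘(ℂ, Cm h) ω H] in
theorem fst_an (hP : PsiT (h := h) S ψ l A) {j : Fin S.N} {z : Cm d}
    (hz : z ∈ ball (0 : Cm d) 3) (r : Fin a) :
    AnalyticAt ℂ (fun v => (ψ (S.σ j v)).1 r) z := by
  have h1 := hP.hol j z hz (chartAt (Cm h) (ψ (S.σ j z)).2) (chart_mem_atlas _ _)
    (mem_chart_source _ _)
  exact (((ContinuousLinearMap.proj (R := ℂ) (φ := fun _ : Fin a => ℂ) r).comp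
    (ContinuousLinearMap.fst ℂ (Cm a) (Cm h))).analyticAt _).comp h1

omit [ContinuousConstSMul K E] [IsManifold 𝓘(ℂ, Cm h) ω H] in
theorem fst_fd (hP : PsiT (h := h) S ψ l A) {j : Fin S.N} {z : Cm d}
    (hz : z ∈ ball (0 : Cm d) 3) {e : Chart h H} (he : e ∈ atlas (Cm h) H)
    (hs : (ψ (S.σ j z)).2 ∈ e.source) (r : Fin a) (U : Cm d) :
    fderiv ℂ (fun v => (ψ (S.σ j v)).1 r) z U = (fderiv ℂ (kp S ψ e j) z U).1 r := by
  have h1 : AnalyticAt ℂ (kp S ψ e j) z := hP.hol j z hz e he hs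
  have h2 : HasFDerivAt (fun v => (ψ (S.σ j v)).1 r)
      (((ContinuousLinearMap.proj (R := ℂ) (φ := fun _ : Fin a => ℂ) r).comp
        (ContinuousLinearMap.fst ℂ (Cm a) (Cm h))).comp (fderiv ℂ (kp S ψ e j) z)) z :=
    ((ContinuousLinearMap.proj (R := ℂ) (φ := fun _ : Fin a => ℂ) r).comp
      (ContinuousLinearMap.fst ℂ (Cm a) (Cm h))).hasFDerivAt.comp z
      h1.differentiableAt.hasFDerivAt
  rw [h2.fderiv]
  rfl

/-- The differentials of the components of `ψ`. -/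
abbrev dP (S : Sheets d E K) (ψ : E → Cm a × H) : Fin S.N → Cm d → Matrix (Fin a) (Fin d) ℂ :=
  dF S (fun x => (ψ x).1)

omit [ContinuousConstSMul K E] [IsManifold 𝓘(ℂ, Cm h) ω H] in
theorem dP_mulVec (hP : PsiT (h := h) S ψ l A) {j : Fin S.N} {z : Cm d}
    (hz : z ∈ ball (0 : Cm d) 3) {e : Chart h H} (he : e ∈ atlas (Cm h) H)
    (hs : (ψ (S.σ j z)).2 ∈ e.source) (U : Cm d) :
    (dP S ψ j z).mulVec U = (fderiv ℂ (kp S ψ e j) z U).1 := by
  funext r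
  rw [← fst_fd hP hz he hs r U, fd_dd]
  rfl

omit [ContinuousConstSMul K E] [IsManifold 𝓘(ℂ, Cm h) ω H] in
theorem fst_key (hP : PsiT (h := h) S ψ l A) (r : Fin a) (i j : Fin S.N) {z z' : Cm d}
    (hz : z ∈ ball (0 : Cm d) 3) (hz' : z' ∈ ball (0 : Cm d) 3) {θ : Cm d → Cm d}
    (hθ : AnalyticAt ℂ θ z) (hθz : θ z = z') {γ : K}
    (hγ : ∀ᶠ u in 𝓝 z, S.σ i u = γ • S.σ j (θ u)) (U : Cm d) :
    fderiv ℂ (fun v => (ψ (S.σ i v)).1 r) z U =
      fderiv ℂ (fun v => (ψ (S.σ j v)).1 r) z' (fderiv ℂ θ z U) := by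
  have he := chart_mem_atlas (Cm h) (ψ (S.σ j z')).2
  have hs := mem_chart_source (Cm h) (ψ (S.σ j z')).2
  obtain ⟨k1, k2, k3⟩ := kp_sheet hP hz' hθ hθz hγ he hs
  rw [fst_fd hP hz he (by rw [k1]; exact hs), fst_fd hP hz' he hs, k3]

omit [IsManifold 𝓘(ℂ, Cm h) ω H] in
theorem fst_fs (hP : PsiT (h := h) S ψ l A) (r : Fin a) :
    FS1 (quo S) (fun (j : Fin S.N) z => fderiv ℂ (fun v => (ψ (S.σ j v)).1 r) z) where
  an j z hz := (fst_an hP hz r).fderiv
  cls j z hz U W := sym2 (fst_an hP hz r) U W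
  change i j z hz z' hz' θ hθ hθz hσ U := by
    obtain ⟨γ, hγ⟩ := one_lift hz hz' hθ hθz hσ
    exact fst_key hP r i j hz hz' hθ hθz hγ U

theorem hol1_dP (hP : PsiT (h := h) S ψ l A) : Hol1 (quo S) (dP S ψ) :=
  hol1_of fun r => fst_fs hP r

omit [ContinuousConstSMul K E] [IsManifold 𝓘(ℂ, Cm h) ω H] in
/-- Forms which agree off `A` agree. -/
theorem dense_sheet (hP : PsiT (h := h) S ψ l A) {j : Fin S.N} {z : Cm d}
    (hz : z ∈ ball (0 : Cm d) 3) :
    (𝓝[{w | w ∈ ball (0 : Cm d) 3 ∧ ψ (S.σ j w) ∉ A}] z).NeBot := by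
  rw [← mem_closure_iff_nhdsWithin_neBot, mem_closure_iff_nhds]
  intro U hU
  obtain ⟨w, h1, h2, h3⟩ := hP.dense j z hz U hU
  exact ⟨w, h1, h2, h3⟩

/-- A form on the sheets, through `ℂ^a × H`, off `A`. -/
theorem asc1_kp (hd : d = a + h) (hP : PsiT (h := h) S ψ l A) {m₀ : Qs K E}
    {b : Fin (quo S).N → Cm d → (Cm d →L[ℂ] ℂ)} (hb : FS1 (quo S) b) {j : Fin S.N} {z : Cm d}
    (hz : z ∈ ball (0 : Cm d) 3) {e : Chart h H} (he : e ∈ atlas (Cm h) H)
    (hs : (ψ (S.σ j z)).2 ∈ e.source) (hA : ψ (S.σ j z) ∉ A) (U : Cm d) :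
    asc1 (quo S) (PsM ψ A m₀) b e (kp S ψ e j z) (fderiv ℂ (kp S ψ e j) z U) = b j z U := by
  obtain ⟨T, hT, hTz⟩ := sec_at (m₀ := m₀) hd hP hz he hs hA
  rw [asc1_eq hb hT, sec_lift_fd hz (lift_off hP hz he hs hA) hT, hTz]

theorem asc2_kp (hd : d = a + h) (hP : PsiT (h := h) S ψ l A) {m₀ : Qs K E}
    {b : Fin (quo S).N → Cm d → BL (Cm d)} (hb : FS2 (quo S) b) {j : Fin S.N} {z : Cm d}
    (hz : z ∈ ball (0 : Cm d) 3) {e : Chart h H} (he : e ∈ atlas (Cm h) H)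
    (hs : (ψ (S.σ j z)).2 ∈ e.source) (hA : ψ (S.σ j z) ∉ A) (U W : Cm d) :
    asc2 (quo S) (PsM ψ A m₀) b e (kp S ψ e j z) (fderiv ℂ (kp S ψ e j) z U)
      (fderiv ℂ (kp S ψ e j) z W) = b j z U W := by
  obtain ⟨T, hT, hTz⟩ := sec_at (m₀ := m₀) hd hP hz he hs hA
  rw [asc2_eq hb hT, sec_lift_fd hz (lift_off hP hz he hs hA) hT,
    sec_lift_fd hz (lift_off hP hz he hs hA) hT, hTz]

/-- **`GenU` in class C.** -/
theorem genC [Nonempty E] [CompactSpace H] [SimplyConnectedSpace H] (hd : d = a + h)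
    (hP : PsiT (h := h) S ψ l A) (hL : Coco (LK l))
    {sg : Chart h H → Cm h → Matrix (Fin h) (Fin h) ℂ} (hsg : IsHol2 sg)
    (hne : ∃ e ∈ atlas (Cm h) H, ∃ u ∈ e.target, (sg e u).det ≠ 0)
    (huniq : ∀ s' : Chart h H → Cm h → Matrix (Fin h) (Fin h) ℂ, IsHol2 s' → ∃ c : ℂ,
      ∀ e ∈ atlas (Cm h) H, ∀ u ∈ e.target, s' e u = c • sg e u) :
    GenU (quo S) (dP S ψ) (fun j z => mt (up2 S ψ (sgA sg) j z)) := by
  have hsml : Sml (h := h) (LK l) A := sml_of hP.small (by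
    rintro m ⟨k, rfl⟩ r
    exact hP.inv k r)
  have m₀ : Qs K E := Classical.arbitrary _
  have hpf := sgA_pf (LK l) hsg
  have hsm : ∀ (j : Fin S.N) (z : Cm d), z ∈ ball (0 : Cm d) 3 → ∀ e ∈ atlas (Cm h) H,
      (ψ (S.σ j z)).2 ∈ e.source → ∀ U W, mf (mt (up2 S ψ (sgA sg) j z)) U W =
        mf (sg e (kp S ψ e j z).2) (fderiv ℂ (kp S ψ e j) z U).2
          (fderiv ℂ (kp S ψ e j) z W).2 := by
    intro j z hz e he hs U W
    rw [mf_mt, up2_eq hP hpf hz he hs, sgA_apply]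
  refine ⟨hol1_dP hP, hol2S_of (up2_fs hP hpf), ?_, fun v hv => ?_, fun s' hs' => ?_⟩
  · obtain ⟨e, he, w, hw, hdet⟩ := hne
    have h1 : ∀ᶠ r : Cm a × Cm h in 𝓝 (0, w), (sg e r.2).det ≠ 0 := by
      have h2 : ContinuousAt (fun w => (sg e w).det) w := by
        have h3 : ContinuousAt (sg e) w := by
          refine continuousAt_pi.2 fun j => continuousAt_pi.2 fun k => ?_
          exact ((hsg.hol e he j k).differentiableAt (e.open_target.mem_nhds hw)).continuousAt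
        exact ContinuousAt.comp (g := Matrix.det) (continuous_id.matrix_det.continuousAt) h3
      have h4 : ContinuousAt (fun r : Cm a × Cm h => (sg e r.2).det) (0, w) :=
        ContinuousAt.comp (g := fun w => (sg e w).det) (f := fun r : Cm a × Cm h => r.2) h2
          continuous_snd.continuousAt
      exact h4.eventually_ne hdet
    have hnb := hsml.dns e he (0, w) hw
    have g1 : ∀ᶠ r : Cm a × Cm h in 𝓝[Off A e] ((0, w) : Cm a × Cm h), (sg e r.2).det ≠ 0 :=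
      mem_nhdsWithin_of_mem_nhds h1
    have g2 : ∀ᶠ r : Cm a × Cm h in 𝓝[Off A e] ((0, w) : Cm a × Cm h), r ∈ Dom a e :=
      mem_nhdsWithin_of_mem_nhds (dom_ev (a := a) (r := (0, w)) hw)
    have g3 : ∀ᶠ r : Cm a × Cm h in 𝓝[Off A e] ((0, w) : Cm a × Cm h), r ∈ Off A e :=
      self_mem_nhdsWithin
    obtain ⟨r, hr1, hr2, hr3⟩ := (g1.and (g2.and g3)).exists
    obtain ⟨x, hx⟩ := hP.surj (r.1, e.symm r.2)
    obtain ⟨γ, j, z, hz, hσ⟩ := S.cover x
    have hz' : z ∈ ball (0 : Cm d) 3 := by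
      rw [mem_ball_zero_iff]
      linarith
    have h5 : ((ψ (S.σ j z)).1 + l γ, (ψ (S.σ j z)).2) = (r.1, e.symm r.2) := by
      rw [← hP.eqv, hσ, hx]
    have h6 : (ψ (S.σ j z)).2 = e.symm r.2 := congrArg Prod.snd h5
    have hs : (ψ (S.σ j z)).2 ∈ e.source := by
      rw [h6]
      exact e.map_target hr2
    have hA : ψ (S.σ j z) ∉ A := by
      intro h7
      apply hr3
      show (r.1, e.symm r.2) ∈ A
      rw [← h5]
      exact (hP.inv γ _).2 h7
    have h7 : (kp S ψ e j z).2 = r.2 := by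
      show e (ψ (S.σ j z)).2 = r.2
      rw [h6, e.right_inv hr2]
    obtain ⟨T, hT, hTz⟩ := sec_at (m₀ := m₀) hd hP hz' he hs hA
    have hinv := sec_lift_fd hz' (lift_off hP hz' he hs hA) hT
    refine ⟨j, z, hz', dt_ne (D := fderiv ℂ (kp S ψ e j) z) (hP.nd j z hz' e he hs hA)
      (inj_of hd hinv).2 (dP_mulVec hP hz' he hs) (hsm j z hz' e he hs) ?_⟩
    rw [h7]
    exact hr1
  · obtain ⟨B', hB', hBe⟩ := pf1_ext hsml (asc1_pfA (m₀ := m₀) hd hP (fs1_of hv))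
    obtain ⟨c, hc⟩ := pf1_form hB' hL
    have key : ∀ (j : Fin S.N) (z : Cm d), z ∈ ball (0 : Cm d) 3 → ∀ U,
        rf (v j z) U = ∑ i, c i * fderiv ℂ (fun v => (ψ (S.σ j v)).1 i) z U := by
      intro j z hz U
      have c1 : ContinuousAt (fun w => rf (v j w) U) z :=
        ((fs1_of hv).an j z hz).continuousAt.clm_apply continuousAt_const
      have c2 : ContinuousAt (fun w => ∑ i, c i * fderiv ℂ (fun v => (ψ (S.σ j v)).1 i) w U) z :=
        tendsto_finsetSum _ fun i _ => Tendsto.mul tendsto_const_nhds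
          ((fst_an hP hz i).fderiv.continuousAt.clm_apply continuousAt_const)
      refine eq_of_dense (dense_sheet (j := j) hP hz) c1 c2 (Eventually.of_forall fun w hw => ?_)
      have he := chart_mem_atlas (Cm h) (ψ (S.σ j w)).2
      have hs := mem_chart_source (Cm h) (ψ (S.σ j w)).2
      rw [← asc1_kp (m₀ := m₀) hd hP (fs1_of hv) hw.1 he hs hw.2 U]
      have k1 : kp S ψ (chartAt (Cm h) (ψ (S.σ j w)).2) j w ∈
          Dom a (chartAt (Cm h) (ψ (S.σ j w)).2) := (chartAt (Cm h) (ψ (S.σ j w)).2).map_source hs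
      have k2 : kp S ψ (chartAt (Cm h) (ψ (S.σ j w)).2) j w ∈
          Off A (chartAt (Cm h) (ψ (S.σ j w)).2) := by
        show ((ψ (S.σ j w)).1, (chartAt (Cm h) (ψ (S.σ j w)).2).symm
          (chartAt (Cm h) (ψ (S.σ j w)).2 (ψ (S.σ j w)).2)) ∉ A
        rw [(chartAt (Cm h) (ψ (S.σ j w)).2).left_inv hs]
        exact hw.2
      rw [← hBe _ he _ k1 k2]
      refine (hc _ he _ _ k1 _).trans (Finset.sum_congr rfl fun i _ => ?_)
      rw [fst_fd hP hw.1 he hs]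
    refine ⟨Matrix.of fun _ i => c i, fun j z hz => ?_⟩
    ext r k
    rw [Subsingleton.elim r 0, ← rf_single (v j z) k, key j z hz, Matrix.mul_apply]
    rfl
  · obtain ⟨B', hB', hBe⟩ := pf2_ext hsml (asc2_pfA (m₀ := m₀) hd hP (fs2_of hs'))
    obtain ⟨c, C, hC, hc⟩ := pf2_form hB' hL hne huniq
    refine ⟨c, C, hC, fun j z hz => mf_ext fun U W => ?_⟩
    have h3 : ∀ z, mf (c • mt (up2 S ψ (sgA sg) j z) + uu C (dP S ψ j z)) U W =
        c * up2 S ψ (sgA sg) j z U W + mf C ((dP S ψ j z).mulVec U) ((dP S ψ j z).mulVec W) := by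
      intro z
      rw [← mf_uu, ← mf_mt (up2 S ψ (sgA sg) j z) U W, mf_dot, mf_dot, mf_dot,
        Matrix.add_mulVec, Matrix.smul_mulVec, dotProduct_add, dotProduct_smul, smul_eq_mul]
    rw [h3]
    have c1 : ContinuousAt (fun w => mf (s' j w) U W) z :=
      (((fs2_of hs').an j z hz).continuousAt.clm_apply continuousAt_const).clm_apply
        continuousAt_const
    have c3 : ∀ U, ContinuousAt (fun w => (dP S ψ j w).mulVec U) z := by
      intro U
      refine continuousAt_pi.2 fun r => ?_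
      have c4 : (fun w => (dP S ψ j w).mulVec U r) =
          fun w => fderiv ℂ (fun v => (ψ (S.σ j v)).1 r) w U := by
        funext w
        rw [fd_dd]
        rfl
      rw [c4]
      exact (fst_an hP hz r).fderiv.continuousAt.clm_apply continuousAt_const
    have c2 : ContinuousAt (fun w => c * up2 S ψ (sgA sg) j w U W +
        mf C ((dP S ψ j w).mulVec U) ((dP S ψ j w).mulVec W)) z := by
      refine ContinuousAt.add (continuousAt_const.mul ?_) ?_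
      · exact (((up2_fs hP hpf).an j z hz).continuousAt.clm_apply continuousAt_const).clm_apply
          continuousAt_const
      · exact ContinuousAt.clm_apply (ContinuousAt.clm_apply continuousAt_const (c3 U)) (c3 W)
    refine eq_of_dense (dense_sheet (j := j) hP hz) c1 c2 (Eventually.of_forall fun w hw => ?_)
    have he := chart_mem_atlas (Cm h) (ψ (S.σ j w)).2
    have hs := mem_chart_source (Cm h) (ψ (S.σ j w)).2
    have k0 := asc2_kp (m₀ := m₀) hd hP (fs2_of hs') hw.1 he hs hw.2 U W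
    have k1 : kp S ψ (chartAt (Cm h) (ψ (S.σ j w)).2) j w ∈
        Dom a (chartAt (Cm h) (ψ (S.σ j w)).2) := (chartAt (Cm h) (ψ (S.σ j w)).2).map_source hs
    have k2 : kp S ψ (chartAt (Cm h) (ψ (S.σ j w)).2) j w ∈
        Off A (chartAt (Cm h) (ψ (S.σ j w)).2) := by
      show ((ψ (S.σ j w)).1, (chartAt (Cm h) (ψ (S.σ j w)).2).symm
        (chartAt (Cm h) (ψ (S.σ j w)).2 (ψ (S.σ j w)).2)) ∉ A
      rw [(chartAt (Cm h) (ψ (S.σ j w)).2).left_inv hs]
      exact hw.2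
    rw [← hBe _ he _ k1 k2] at k0
    rw [dP_mulVec hP hw.1 he hs, dP_mulVec hP hw.1 he hs, up2_eq hP hpf hw.1 he hs, sgA_apply,
      ← hc _ he (kp S ψ (chartAt (Cm h) (ψ (S.σ j w)).2) j w).1
        (kp S ψ (chartAt (Cm h) (ψ (S.σ j w)).2) j w).2 k1]
    exact k0.symm

theorem genU_psi [Nonempty E] [CompactSpace H] [SimplyConnectedSpace H] (hd : d = a + h)
    (hP : PsiT (h := h) S ψ l A) (hL : Coco (LK l)) (hH : Sympl h H) :
    ∃ s, GenU (quo S) (dF S fun x => (ψ x).1) s := by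
  obtain ⟨sg, h1, h2, h3⟩ := hH
  exact ⟨_, genC hd hP hL h1 h2 h3⟩

end

end Vale.Agent.P281.H702.HKT
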