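import Vale.Agent.P281.H191.RC.PsiT
import Vale.Agent.P281.H485.Gen.Har
import Vale.Agent.P281.H702.HKT.Ext

/-!
# P281, project T-HKT, class C (helper702): Hartogs' theorem on `ℂ^a × H`
-/

open Set Filter Metric Vale.Agent.P281 Vale.Agent.P272.K
open scoped Topology ContDiff Manifold

noncomputable section

set_option maxSynthPendingDepth 3

namespace Vale.Agent.P281.H702.HKT

open Vale.Agent.P281.H191.RC (Sml2)
open Vale.Agent.P281.H64.Gen (IsSmall2)

section
variable {a h : ℕ} {H : Type} [TopologicalSpace H] [ChartedSpace (Cm h) H]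

/-- `ℂ^(a + h) = ℂ^a × ℂ^h` -/
def phi (a h : ℕ) : Cm (a + h) ≃L[ℂ] Cm a × Cm h :=
  ContinuousLinearEquiv.ofFinrankEq (by simp)

/-- The part of `S` in a ball, in the chart. -/
def Pt (e : Chart h H) (r₀ : Cm a × Cm h) (R : ℝ) (S : Set (Cm a × H)) : Set (Cm (a + h)) :=
  phi a h ⁻¹' (closedBall r₀ R ∩ {r | (r.1, e.symm r.2) ∈ S})

omit [ChartedSpace (Cm h) H] in
theorem pt_closed {e : Chart h H} {r₀ : Cm a × Cm h} {R : ℝ} (hR : closedBall r₀ R ⊆ Dom a e)
    {S : Set (Cm a × H)} (hS : IsClosed S) : IsClosed (Pt e r₀ R S) := by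
  refine IsClosed.preimage (phi a h).continuous ?_
  refine ContinuousOn.preimage_isClosed_of_isClosed
    (f := fun r : Cm a × Cm h => (r.1, e.symm r.2)) ?_ isClosed_closedBall hS
  refine continuous_fst.continuousOn.prodMk ?_
  exact e.continuousOn_symm.comp continuous_snd.continuousOn (fun r hr => hR hr)

theorem small_loc {A : Set (Cm a × H)} (hA : Sml2 h A) {e : Chart h H}
    (he : e ∈ atlas (Cm h) H) {r₀ : Cm a × Cm h} {R : ℝ} (hR : closedBall r₀ R ⊆ Dom a e) :
    IsSmall2 (Cm (a + h)) (Pt e r₀ R A) := by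
  obtain ⟨N, hN, hAN, hloc⟩ := hA.cov
  refine ⟨pt_closed hR hA.closed, fun k => Pt e r₀ R (N k), fun k => ⟨pt_closed hR (hN k), ?_⟩, ?_⟩
  · intro x hx
    have hxt : (phi a h x).2 ∈ e.target := hR hx.1
    obtain ⟨g, h1, h2, h3⟩ := hloc k ((phi a h x).1, e.symm (phi a h x).2) hx.2 e he
      (e.map_target hxt)
    simp only [e.right_inv hxt] at h1 h2 h3
    have h4 : ∀ i, HasFDerivAt (fun y => g i (phi a h y))
        ((fderiv ℂ (g i) (phi a h x)).comp (phi a h : Cm (a + h) →L[ℂ] Cm a × Cm h)) x := fun i =>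
      HasFDerivAt.comp x (h1 i).differentiableAt.hasFDerivAt (phi a h).hasFDerivAt
    have h5 : ∀ i, AnalyticAt ℂ (fun y => g i (phi a h y)) x := fun i =>
      AnalyticAt.fun_comp (g := g i) (h1 i)
        ((phi a h : Cm (a + h) →L[ℂ] Cm a × Cm h).analyticAt x)
    refine ⟨fun i y => g i (phi a h y), fun i => (h5 i).contDiffAt.contMDiffAt, ?_, ?_⟩
    · intro c
      obtain ⟨ξ, hξ⟩ := h2 c
      refine ⟨(phi a h).symm ξ, ?_⟩
      funext i
      have h6 : J.dif (Cm (a + h)) (fun y => g i (phi a h y)) x =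
          (fderiv ℂ (g i) (phi a h x)).comp (phi a h : Cm (a + h) →L[ℂ] Cm a × Cm h) := by
        unfold J.dif
        rw [mfderiv_eq_fderiv]
        exact (h4 i).fderiv
      show J.dif (Cm (a + h)) (fun y => g i (phi a h y)) x ((phi a h).symm ξ) = c i
      rw [h6, ← congrFun hξ i]
      show fderiv ℂ (g i) (phi a h x) (phi a h ((phi a h).symm ξ)) = _
      rw [ContinuousLinearEquiv.apply_symm_apply]
    · filter_upwards [(phi a h).continuous.continuousAt.eventually h3] with y hy hyN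
      exact hy hyN.2
  · intro x hx
    obtain ⟨k, hk⟩ := mem_iUnion.1 (hAN hx.2)
    exact mem_iUnion.2 ⟨k, hx.1, hk⟩

/-- The points off `A` are dense. -/
theorem dns {A : Set (Cm a × H)} (hA : Sml2 h A) {e : Chart h H} (he : e ∈ atlas (Cm h) H)
    {r : Cm a × Cm h} (hr : r ∈ Dom a e) : (𝓝[Off A e] r).NeBot := by
  obtain ⟨R, hR0, hR⟩ := Metric.nhds_basis_closedBall.mem_iff.1 ((dom_open e).mem_nhds hr)
  have h1 : Dense (Pt e r R A)ᶜ := H383.Gen.dense_compl_small
    (H485.Gen.IsSmall2.small (small_loc hA he hR))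
  rw [← mem_closure_iff_nhdsWithin_neBot, mem_closure_iff_nhds]
  intro U hU
  have h2 : U ∩ ball r R ∈ 𝓝 r := inter_mem hU (ball_mem_nhds r hR0)
  have h3 : phi a h ⁻¹' (U ∩ ball r R) ∈ 𝓝 ((phi a h).symm r) := by
    refine (phi a h).continuous.continuousAt.preimage_mem_nhds ?_
    rwa [ContinuousLinearEquiv.apply_symm_apply]
  obtain ⟨x, hx1, hx2⟩ := h1.inter_nhds_nonempty h3
  refine ⟨phi a h x, hx2.1, fun hx3 => hx1 ⟨ball_subset_closedBall hx2.2, hx3⟩⟩

/-- Holomorphic functions extend, locally. -/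
theorem har_loc [Inhabited (Cm a × Cm h)] {A : Set (Cm a × H)} (hA : Sml2 h A) {e : Chart h H}
    (he : e ∈ atlas (Cm h) H) {f : Cm a × Cm h → ℂ}
    (hf : ∀ q ∈ Dom a e, q ∈ Off A e → AnalyticAt ℂ f q) {r : Cm a × Cm h} (hr : r ∈ Dom a e) :
    ∃ g : Cm a × Cm h → ℂ, (∀ᶠ q in 𝓝 r, AnalyticAt ℂ g q) ∧
      ∀ᶠ q in 𝓝 r, q ∈ Off A e → g q = f q := by
  obtain ⟨R, hR0, hR⟩ := Metric.nhds_basis_closedBall.mem_iff.1 ((dom_open e).mem_nhds hr)
  obtain ⟨s', h1, h2⟩ := H485.Gen.hartogs (n := a + h) (X := Cm (a + h)) (N := Pt e r R A)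
    (U := phi a h ⁻¹' ball r R) (s := fun y => f (phi a h y)) (small_loc hA he hR)
    (isOpen_ball.preimage (phi a h).continuous) (fun x hx hxA => by
      have k1 : phi a h x ∈ Off A e := fun k2 => hxA ⟨ball_subset_closedBall hx, k2⟩
      have k3 : AnalyticAt ℂ (fun y => f (phi a h y)) x :=
        AnalyticAt.fun_comp (g := f) (hf _ (hR (ball_subset_closedBall hx)) k1)
          ((phi a h : Cm (a + h) →L[ℂ] Cm a × Cm h).analyticAt x)
      exact k3.contDiffAt.contMDiffAt)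
  refine ⟨fun q => s' ((phi a h).symm q), ?_, ?_⟩
  · filter_upwards [ball_mem_nhds r hR0] with q hq
    have k1 : (phi a h).symm q ∈ phi a h ⁻¹' ball r R := by
      show phi a h ((phi a h).symm q) ∈ ball r R
      rwa [ContinuousLinearEquiv.apply_symm_apply]
    have k2 : AnalyticAt ℂ s' ((phi a h).symm q) :=
      (contMDiffAt_iff_contDiffAt.1 (h1 _ k1)).analyticAt
    exact AnalyticAt.fun_comp (g := s') k2
      (((phi a h).symm : Cm a × Cm h →L[ℂ] Cm (a + h)).analyticAt q)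
  · filter_upwards [ball_mem_nhds r hR0] with q hq hqA
    have k1 : (phi a h).symm q ∈ phi a h ⁻¹' ball r R := by
      show phi a h ((phi a h).symm q) ∈ ball r R
      rwa [ContinuousLinearEquiv.apply_symm_apply]
    have k2 : (phi a h).symm q ∉ Pt e r R A := by
      intro k3
      have k4 := k3.2
      rw [ContinuousLinearEquiv.apply_symm_apply] at k4
      exact hqA k4
    rw [h2 _ k1 k2]
    show f (phi a h ((phi a h).symm q)) = f q
    rw [ContinuousLinearEquiv.apply_symm_apply]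

/-- **[H]**: holomorphic functions extend. -/
theorem har {A : Set (Cm a × H)} (hA : Sml2 h A) {e : Chart h H} (he : e ∈ atlas (Cm h) H) :
    HarD (Dom a e) (Off A e) := by
  classical
  intro f hf
  have h1 : ∀ r : Cm a × Cm h, ∃ g : Cm a × Cm h → ℂ, r ∈ Dom a e →
      (∀ᶠ q in 𝓝 r, AnalyticAt ℂ g q) ∧ ∀ᶠ q in 𝓝 r, q ∈ Off A e → g q = f q := by
    intro r
    by_cases hr : r ∈ Dom a e
    · obtain ⟨g, k1, k2⟩ := har_loc hA he hf hr
      exact ⟨g, fun _ => ⟨k1, k2⟩⟩
    · exact ⟨0, fun h => absurd h hr⟩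
  choose g hg using h1
  have h2 : ∀ r ∈ Dom a e, (fun q => g q q) =ᶠ[𝓝 r] g r := by
    intro r hr
    filter_upwards [dom_ev hr, (hg r hr).1, eventually_eventually_nhds.2 (hg r hr).2]
      with q k1 k2 k3
    refine eq_of_dense (dns hA he k1) ((hg q k1).1.self_of_nhds).continuousAt k2.continuousAt ?_
    filter_upwards [k3, (hg q k1).2] with q' k4 k5 k6
    rw [k4 k6, k5 k6]
  refine ⟨fun q => g q q, fun r hr => ?_, fun r hr hrA => ?_⟩
  · exact ((hg r hr).1.self_of_nhds).congr (h2 r hr).symm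
  · exact (hg r hr).2.self_of_nhds hrA

/-- The set `A` of `Sml2` is small. -/
theorem sml_of {A : Set (Cm a × H)} (hA : Sml2 h A) {L : Set (Cm a)}
    (hL : ∀ l ∈ L, ∀ r : Cm a × H, (r.1 + l, r.2) ∈ A ↔ r ∈ A) : Sml (h := h) L A where
  cls := hA.closed
  inv := hL
  har e he := har hA he
  dns e he r hr := dns hA he hr

end

end Vale.Agent.P281.H702.HKT
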