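import Vale.Agent.P281.H702.HK.HF2

/-!
# P281, project T-HKT (helper702): pull-back of closed holomorphic forms
-/

open Set Filter Metric Vale.Agent.P272.K
open scoped Topology ContDiff

noncomputable section

set_option maxSynthPendingDepth 3

namespace Vale.Agent.P281.H702.HKT

section
variable {X Y Z : Type*} [NormedAddCommGroup X] [NormedSpace ℂ X]
  [NormedAddCommGroup Y] [NormedSpace ℂ Y] [NormedAddCommGroup Z] [NormedSpace ℂ Z]

/-- Bilinear forms. -/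
abbrev BL (X : Type*) [NormedAddCommGroup X] [NormedSpace ℂ X] := X →L[ℂ] X →L[ℂ] ℂ

/-- `b` is closed at `x`. -/
def Cls1 (b : X → (X →L[ℂ] ℂ)) (x : X) : Prop := ∀ u v, fderiv ℂ b x u v = fderiv ℂ b x v u

/-- `A` is closed at `x`. -/
def Cls2 (A : X → BL X) (x : X) : Prop :=
  ∀ u v w, fderiv ℂ A x u v w + fderiv ℂ A x v w u + fderiv ℂ A x w u v = 0

/-- The pull-back of a 1-form. -/
def pb1 (b : Y → (Y →L[ℂ] ℂ)) (g : X → Y) (x : X) : X →L[ℂ] ℂ := (b (g x)).comp (fderiv ℂ g x)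

/-- The pull-back of a 2-form. -/
def pb2 (A : Y → BL Y) (g : X → Y) (x : X) : BL X :=
  (((A (g x)).comp (fderiv ℂ g x)).flip.comp (fderiv ℂ g x)).flip

theorem pb1_apply (b : Y → (Y →L[ℂ] ℂ)) (g : X → Y) (x u : X) :
    pb1 b g x u = b (g x) (fderiv ℂ g x u) := rfl

theorem pb2_apply (A : Y → BL Y) (g : X → Y) (x u v : X) :
    pb2 A g x u v = A (g x) (fderiv ℂ g x u) (fderiv ℂ g x v) := rfl

theorem fd_app {P : X → (Y →L[ℂ] Z)} {x : X} (hP : DifferentiableAt ℂ P x) (u : X) (v : Y) :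
    fderiv ℂ P x u v = fderiv ℂ (fun x => P x v) x u := by
  have h := hP.hasFDerivAt.clm_apply (hasFDerivAt_const v x)
  rw [h.fderiv]
  simp

theorem fd_app2 {P : X → BL Y} {x : X} (hP : DifferentiableAt ℂ P x) (u : X) (v w : Y) :
    fderiv ℂ P x u v w = fderiv ℂ (fun x => P x v w) x u := by
  have h := (hP.hasFDerivAt.clm_apply (hasFDerivAt_const v x)).clm_apply (hasFDerivAt_const w x)
  rw [h.fderiv]
  simp

variable [CompleteSpace Y]

theorem pb1_an {b : Y → (Y →L[ℂ] ℂ)} {g : X → Y} {x : X} (hb : AnalyticAt ℂ b (g x))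
    (hg : AnalyticAt ℂ g x) : AnalyticAt ℂ (pb1 b g) x := by
  have h : ContDiffAt ℂ ω (pb1 b g) x :=
    ContDiffAt.clm_comp (hb.comp hg).contDiffAt hg.fderiv.contDiffAt
  exact h.analyticAt

theorem pb2_an {A : Y → BL Y} {g : X → Y} {x : X} (hA : AnalyticAt ℂ A (g x))
    (hg : AnalyticAt ℂ g x) : AnalyticAt ℂ (pb2 A g) x := by
  have h1 : ContDiffAt ℂ ω (fun x => (A (g x)).comp (fderiv ℂ g x)) x :=
    ContDiffAt.clm_comp (hA.comp hg).contDiffAt hg.fderiv.contDiffAt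
  have h2 : ContDiffAt ℂ ω (fun x => ((A (g x)).comp (fderiv ℂ g x)).flip) x :=
    (ContinuousLinearMap.flipₗᵢ ℂ X Y ℂ).contDiff.contDiffAt.comp x h1
  have h3 : ContDiffAt ℂ ω (fun x => ((A (g x)).comp (fderiv ℂ g x)).flip.comp (fderiv ℂ g x)) x :=
    h2.clm_comp hg.fderiv.contDiffAt
  have h4 : ContDiffAt ℂ ω (pb2 A g) x :=
    (ContinuousLinearMap.flipₗᵢ ℂ X X ℂ).contDiff.contDiffAt.comp x h3
  exact h4.analyticAt

theorem sym2 {g : X → Y} {x : X} (hg : AnalyticAt ℂ g x) (u v : X) :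
    fderiv ℂ (fderiv ℂ g) x u v = fderiv ℂ (fderiv ℂ g) x v u :=
  (hg.contDiffAt (n := ω)).isSymmSndFDerivAt (by simp) u v

theorem pb1_fd {b : Y → (Y →L[ℂ] ℂ)} {g : X → Y} {x : X} (hb : AnalyticAt ℂ b (g x))
    (hg : AnalyticAt ℂ g x) (u v : X) :
    fderiv ℂ (pb1 b g) x u v = fderiv ℂ b (g x) (fderiv ℂ g x u) (fderiv ℂ g x v) +
      b (g x) (fderiv ℂ (fderiv ℂ g) x u v) := by
  rw [fd_app (pb1_an hb hg).differentiableAt]
  have h1 : HasFDerivAt (fun x => b (g x)) ((fderiv ℂ b (g x)).comp (fderiv ℂ g x)) x :=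
    hb.differentiableAt.hasFDerivAt.comp x hg.differentiableAt.hasFDerivAt
  have h2 := hg.fderiv.differentiableAt.hasFDerivAt.clm_apply (hasFDerivAt_const v x)
  have h3 := h1.clm_apply h2
  have h4 : (fun x => pb1 b g x v) = fun x => b (g x) (fderiv ℂ g x v) := rfl
  rw [h4, h3.fderiv]
  simp
  ring

theorem pb2_fd {A : Y → BL Y} {g : X → Y} {x : X} (hA : AnalyticAt ℂ A (g x))
    (hg : AnalyticAt ℂ g x) (u v w : X) :
    fderiv ℂ (pb2 A g) x u v w =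
      fderiv ℂ A (g x) (fderiv ℂ g x u) (fderiv ℂ g x v) (fderiv ℂ g x w) +
      A (g x) (fderiv ℂ (fderiv ℂ g) x u v) (fderiv ℂ g x w) +
      A (g x) (fderiv ℂ g x v) (fderiv ℂ (fderiv ℂ g) x u w) := by
  rw [fd_app2 (pb2_an hA hg).differentiableAt]
  have h1 : HasFDerivAt (fun x => A (g x)) ((fderiv ℂ A (g x)).comp (fderiv ℂ g x)) x :=
    hA.differentiableAt.hasFDerivAt.comp x hg.differentiableAt.hasFDerivAt
  have h2 : ∀ v, HasFDerivAt (fun x => fderiv ℂ g x v) _ x := fun v =>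
    hg.fderiv.differentiableAt.hasFDerivAt.clm_apply (hasFDerivAt_const v x)
  have h3 := (h1.clm_apply (h2 v)).clm_apply (h2 w)
  have h4 : (fun x => pb2 A g x v w) = fun x => A (g x) (fderiv ℂ g x v) (fderiv ℂ g x w) := rfl
  rw [h4, h3.fderiv]
  simp
  ring

theorem pb1_cls {b : Y → (Y →L[ℂ] ℂ)} {g : X → Y} {x : X} (hb : AnalyticAt ℂ b (g x))
    (hg : AnalyticAt ℂ g x) (h : Cls1 b (g x)) : Cls1 (pb1 b g) x := by
  intro u v
  rw [pb1_fd hb hg, pb1_fd hb hg, h, sym2 hg]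

theorem pb2_cls {A : Y → BL Y} {g : X → Y} {x : X} (hA : AnalyticAt ℂ A (g x))
    (hg : AnalyticAt ℂ g x) (alt : ∀ u v, A (g x) u v = -A (g x) v u) (h : Cls2 A (g x)) :
    Cls2 (pb2 A g) x := by
  intro u v w
  rw [pb2_fd hA hg, pb2_fd hA hg, pb2_fd hA hg, sym2 hg w v, sym2 hg w u, sym2 hg v u]
  have h1 := h (fderiv ℂ g x u) (fderiv ℂ g x v) (fderiv ℂ g x w)
  rw [alt (fderiv ℂ g x v) (fderiv ℂ (fderiv ℂ g) x u w),
    alt (fderiv ℂ g x w) (fderiv ℂ (fderiv ℂ g) x u v),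
    alt (fderiv ℂ g x u) (fderiv ℂ (fderiv ℂ g) x v w)]
  linear_combination h1

end

end Vale.Agent.P281.H702.HKT
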