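import Vale.Agent.P281.H702.HKT.Prod
import Vale.Agent.P281.H702.HKT.Pull

/-!
# P281, project T-HKT (helper702): closed holomorphic forms on `ℂ^a × H`, periodic in `ℂ^a`
-/

open Set Filter Metric Vale.Agent.P272.K
open scoped Topology ContDiff Manifold

noncomputable section

set_option maxSynthPendingDepth 3

namespace Vale.Agent.P281.H702.HKT

open Vale.Agent.P281.H64.TK (jac dd)
open Vale.Agent.P281.H83.HK (IsHol2)
open Vale.Agent.P281.H702.HK (mf mf_apply mf_alt mf_analytic mf_fd mf_closed B2)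
open Vale.Agent.P281.H702.Z

/-! ### Matrices -/

section mt
variable {d : ℕ}

/-- The matrix of a bilinear form. -/
def mt (β : BL (Cm d)) : Matrix (Fin d) (Fin d) ℂ :=
  Matrix.of fun j k => β (Pi.single j 1) (Pi.single k 1)

theorem mf_mt (β : BL (Cm d)) (u v : Cm d) : mf (mt β) u v = β u v :=
  mf_of β (ContinuousLinearMap.id ℂ (Cm d)) u v

theorem mt_mf (m : Matrix (Fin d) (Fin d) ℂ) : mt (mf m) = m := by
  ext j k
  exact mf_single m j k

theorem mt_alt {β : BL (Cm d)} (h : ∀ u v, β u v = -β v u) : (mt β).transpose = -mt β := by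
  ext j k
  exact h _ _

theorem mt_dd {P : Cm d → BL (Cm d)} {z : Cm d} (hP : DifferentiableAt ℂ P z) (j k l : Fin d) :
    dd l (fun z => mt (P z) j k) z =
      fderiv ℂ P z (Pi.single l 1) (Pi.single j 1) (Pi.single k 1) := by
  rw [fd_app2 hP]
  rfl

theorem mt_closed {P : Cm d → BL (Cm d)} {z : Cm d} (hP : DifferentiableAt ℂ P z)
    (hc : Cls2 P z) (j k l : Fin d) :
    dd l (fun z => mt (P z) j k) z + dd j (fun z => mt (P z) k l) z +
      dd k (fun z => mt (P z) l j) z = 0 := by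
  rw [mt_dd hP, mt_dd hP, mt_dd hP]
  exact hc _ _ _

theorem mt_diff {P : Cm d → BL (Cm d)} {z : Cm d} (hP : DifferentiableAt ℂ P z) (j k : Fin d) :
    DifferentiableAt ℂ (fun z => mt (P z) j k) z := by
  have h := ((hP.hasFDerivAt.clm_apply
    (hasFDerivAt_const (Pi.single j (1 : ℂ) : Cm d) z)).clm_apply
    (hasFDerivAt_const (Pi.single k (1 : ℂ) : Cm d) z)).differentiableAt
  exact h

theorem mt_change {β β' : BL (Cm d)} {θ : Cm d → Cm d} {z : Cm d}
    (h : ∀ u v, β u v = β' (fderiv ℂ θ z u) (fderiv ℂ θ z v)) :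
    mt β = (jac θ z).transpose * mt β' * jac θ z := by
  rw [← mt_mf ((jac θ z).transpose * mt β' * jac θ z)]
  ext j k
  show β (Pi.single j 1) (Pi.single k 1) = mf _ (Pi.single j 1) (Pi.single k 1)
  rw [H702.HK.mf_change (fd_jac θ z (Pi.single j 1)) (fd_jac θ z (Pi.single k 1)), mf_mt, h]

end mt

section
variable {a h : ℕ} {H : Type} [TopologicalSpace H] [ChartedSpace (Cm h) H]

/-- A closed holomorphic 2-form on `H`, in the charts. -/
theorem hol2_of {P : Chart h H → Cm h → BL (Cm h)}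
    (an : ∀ e ∈ atlas (Cm h) H, ∀ w ∈ e.target, AnalyticAt ℂ (P e) w)
    (alt : ∀ e ∈ atlas (Cm h) H, ∀ w ∈ e.target, ∀ u v, P e w u v = -P e w v u)
    (cl : ∀ e ∈ atlas (Cm h) H, ∀ w ∈ e.target, Cls2 (P e) w)
    (ch : ∀ e ∈ atlas (Cm h) H, ∀ e' ∈ atlas (Cm h) H, ∀ x ∈ e.source ∩ e'.source, ∀ u v,
      P e (e x) u v = P e' (e' x) (fderiv ℂ (fun u => e' (e.symm u)) (e x) u)
        (fderiv ℂ (fun u => e' (e.symm u)) (e x) v)) :
    IsHol2 (fun e w => mt (P e w)) where
  hol e he j k w hw := (mt_diff (an e he w hw).differentiableAt j k).differentiableWithinAt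
  alt e he w hw := mt_alt (alt e he w hw)
  closed e he w hw j k l := mt_closed (an e he w hw).differentiableAt (cl e he w hw) j k l
  change e he e' he' x hx := mt_change (ch e he e' he' x hx)

/-! ### Functions -/

/-- A holomorphic function of `(z, x)`, in the charts of `H`, periodic in `z`. -/
structure Fn (L : Set (Cm a)) (G : Chart h H → Cm a × Cm h → ℂ) : Prop where
  an : ∀ e ∈ atlas (Cm h) H, ∀ z, ∀ w ∈ e.target, AnalyticAt ℂ (G e) (z, w)
  change : ∀ e ∈ atlas (Cm h) H, ∀ e' ∈ atlas (Cm h) H, ∀ z, ∀ x ∈ e.source ∩ e'.source,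
    G e (z, e x) = G e' (z, e' x)
  per : ∀ e ∈ atlas (Cm h) H, ∀ l ∈ L, ∀ z, ∀ w ∈ e.target, G e (z + l, w) = G e (z, w)

theorem an_mkr (z : Cm a) (w : Cm h) : AnalyticAt ℂ (fun w : Cm h => (z, w)) w :=
  AnalyticAt.prod analyticAt_const analyticAt_id

theorem an_mkl (z : Cm a) (w : Cm h) : AnalyticAt ℂ (fun z : Cm a => (z, w)) z :=
  AnalyticAt.prod analyticAt_id analyticAt_const

theorem an_left {Y : Type*} [NormedAddCommGroup Y] [NormedSpace ℂ Y] {f : Cm a × Cm h → Y}
    {z : Cm a} {w : Cm h} (hf : AnalyticAt ℂ f (z, w)) : AnalyticAt ℂ (fun z => f (z, w)) z :=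
  AnalyticAt.fun_comp (g := f) (f := fun z => (z, w)) hf (an_mkl z w)

theorem an_right {Y : Type*} [NormedAddCommGroup Y] [NormedSpace ℂ Y] {f : Cm a × Cm h → Y}
    {z : Cm a} {w : Cm h} (hf : AnalyticAt ℂ f (z, w)) : AnalyticAt ℂ (fun w => f (z, w)) w :=
  AnalyticAt.fun_comp (g := f) (f := fun w => (z, w)) hf (an_mkr z w)

variable [IsManifold 𝓘(ℂ, Cm h) ω H]

theorem Fn.const [CompactSpace H] [PreconnectedSpace H] [Nonempty H] {L : Set (Cm a)}
    {G : Chart h H → Cm a × Cm h → ℂ} (hG : Fn L G) (hL : Coco L) :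
    ∃ c, ∀ e ∈ atlas (Cm h) H, ∀ z, ∀ w ∈ e.target, G e (z, w) = c := by
  obtain ⟨x₀⟩ := ‹Nonempty H›
  set g : Cm a → H → ℂ := fun z x => G (chartAt (Cm h) x) (z, chartAt (Cm h) x x) with hg
  have h0 : ∀ e ∈ atlas (Cm h) H, ∀ z, ∀ x ∈ e.source, g z x = G e (z, e x) := fun e he z x hx =>
    hG.change _ (chart_mem_atlas _ _) e he z x ⟨mem_chart_source _ _, hx⟩
  have h1 : ∀ z x, g z x = g z x₀ := by
    intro z x
    have hmd : MDifferentiable 𝓘(ℂ, Cm h) 𝓘(ℂ, ℂ) (g z) := by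
      intro y
      set e := chartAt (Cm h) y with he
      have hea : e ∈ atlas (Cm h) H := chart_mem_atlas _ _
      have hy : y ∈ e.source := mem_chart_source _ _
      have h2 : J.HolAt (Cm h) (fun y => G e (z, e y)) y :=
        holAt_of hea hy (an_right (hG.an e hea z _ (e.map_source hy)))
      have h3 : J.HolAt (Cm h) (g z) y := by
        refine h2.congr_of_eventuallyEq ?_
        filter_upwards [e.open_source.mem_nhds hy] with x hx
        exact h0 e hea z x hx
      exact ContMDiffAt.mdifferentiableAt h3 (by simp)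
    obtain ⟨v, hv⟩ := hmd.exists_eq_const_of_compactSpace
    rw [hv]
    rfl
  have h2 : ∀ z z', g z x₀ = g z' x₀ := by
    set e := chartAt (Cm h) x₀ with he
    have hea : e ∈ atlas (Cm h) H := chart_mem_atlas _ _
    have hw : e x₀ ∈ e.target := e.map_source (mem_chart_source _ _)
    exact const_of_per hL (fun z => an_left (hG.an e hea z _ hw))
      (fun l hl z => hG.per e hea l hl z _ hw)
  refine ⟨g 0 x₀, fun e he z w hw => ?_⟩
  rw [h2 0 z, ← h1 z (e.symm w), h0 e he z _ (e.map_target hw), e.right_inv hw]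

/-! ### 1-forms -/

omit [IsManifold 𝓘(ℂ, Cm h) ω H] in
theorem fd_right (z : Cm a) (w v : Cm h) :
    fderiv ℂ (fun w : Cm h => (z, w)) w v = ((0 : Cm a), v) := by
  have h1 : HasFDerivAt (fun w : Cm h => (z, w)) ((0 : Cm h →L[ℂ] Cm a).prod
      (ContinuousLinearMap.id ℂ (Cm h))) w := (hasFDerivAt_const z w).prodMk (hasFDerivAt_id w)
  rw [h1.fderiv]
  rfl

/-- A closed holomorphic 1-form on `ℂ^a × H`, periodic. -/
structure PF1 (L : Set (Cm a)) (B : Chart h H → Cm a × Cm h → (Cm a × Cm h →L[ℂ] ℂ)) :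
    Prop where
  an : ∀ e ∈ atlas (Cm h) H, ∀ z, ∀ w ∈ e.target, AnalyticAt ℂ (B e) (z, w)
  closed : ∀ e ∈ atlas (Cm h) H, ∀ z, ∀ w ∈ e.target, Cls1 (B e) (z, w)
  change : ∀ e ∈ atlas (Cm h) H, ∀ e' ∈ atlas (Cm h) H, ∀ z, ∀ x ∈ e.source ∩ e'.source, ∀ U,
    B e (z, e x) U = B e' (z, e' x) (U.1, fderiv ℂ (fun u => e' (e.symm u)) (e x) U.2)
  per : ∀ e ∈ atlas (Cm h) H, ∀ l ∈ L, ∀ z, ∀ w ∈ e.target, B e (z + l, w) = B e (z, w)

theorem pf1_form [CompactSpace H] [SimplyConnectedSpace H] {L : Set (Cm a)}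
    {B : Chart h H → Cm a × Cm h → (Cm a × Cm h →L[ℂ] ℂ)} (hB : PF1 L B) (hL : Coco L) :
    ∃ c : Fin a → ℂ, ∀ e ∈ atlas (Cm h) H, ∀ z, ∀ w ∈ e.target, ∀ U,
      B e (z, w) U = ∑ i, c i * U.1 i := by
  have h1 : ∀ e ∈ atlas (Cm h) H, ∀ z, ∀ w ∈ e.target, ∀ v, B e (z, w) (0, v) = 0 := by
    intro e he z w hw v
    have hc : Ch1 (H := H) (fun e => pb1 (B e) (fun w => (z, w))) := by
      refine ⟨fun e he w hw => pb1_an (hB.an e he z w hw) (an_mkr z w),
        fun e he w hw => pb1_cls (hB.an e he z w hw) (an_mkr z w)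
          (hB.closed e he z w hw), fun e he e' he' x hx v => ?_⟩
      rw [pb1_apply, pb1_apply, fd_right, fd_right, hB.change e he e' he' z x hx]
    have h2 := ch1_zero hc he hw
    have h3 := congrArg (fun T : Cm h →L[ℂ] ℂ => T v) h2
    simp only [pb1_apply, fd_right] at h3
    exact h3
  have h2 : ∀ i : Fin a, ∃ c, ∀ e ∈ atlas (Cm h) H, ∀ z, ∀ w ∈ e.target,
      B e (z, w) (Pi.single i 1, 0) = c := by
    intro i
    have hF : Fn (H := H) L fun e q => B e q (Pi.single i 1, 0) := by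
      refine ⟨fun e he z w hw => ?_, fun e he e' he' z x hx => ?_, fun e he l hl z w hw => ?_⟩
      · exact (ContinuousLinearMap.apply ℂ ℂ ((Pi.single i 1, 0) : Cm a × Cm h)).analyticAt _
          |>.comp (hB.an e he z w hw)
      · have := hB.change e he e' he' z x hx (Pi.single i 1, 0)
        simpa using this
      · show B e (z + l, w) _ = B e (z, w) _
        rw [hB.per e he l hl z w hw]
    exact hF.const hL
  choose c hc using h2
  refine ⟨c, fun e he z w hw U => ?_⟩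
  have h3 : U = (∑ i, U.1 i • ((Pi.single i 1, 0) : Cm a × Cm h)) + (0, U.2) := by
    refine Prod.ext ?_ ?_
    · simp only [Prod.fst_add, Prod.fst_sum, Prod.smul_fst, add_zero]
      exact pi_eq_sum_univ' U.1
    · simp only [Prod.snd_add, Prod.snd_sum, Prod.smul_snd, smul_zero, Finset.sum_const_zero,
        zero_add]
  conv_lhs => rw [h3]
  rw [map_add, map_sum, h1 e he z w hw, add_zero]
  refine Finset.sum_congr rfl fun i _ => ?_
  rw [map_smul, hc i e he z w hw, smul_eq_mul, mul_comm]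

end

/-! ### 2-forms -/

section
variable {a h : ℕ} {H : Type} [TopologicalSpace H] [ChartedSpace (Cm h) H]

/-- A closed holomorphic 2-form on `ℂ^a × H`, periodic. -/
structure PF2 (L : Set (Cm a)) (A : Chart h H → Cm a × Cm h → BL (Cm a × Cm h)) : Prop where
  an : ∀ e ∈ atlas (Cm h) H, ∀ z, ∀ w ∈ e.target, AnalyticAt ℂ (A e) (z, w)
  alt : ∀ e ∈ atlas (Cm h) H, ∀ z, ∀ w ∈ e.target, ∀ U W, A e (z, w) U W = -A e (z, w) W U
  closed : ∀ e ∈ atlas (Cm h) H, ∀ z, ∀ w ∈ e.target, Cls2 (A e) (z, w)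
  change : ∀ e ∈ atlas (Cm h) H, ∀ e' ∈ atlas (Cm h) H, ∀ z, ∀ x ∈ e.source ∩ e'.source,
    ∀ U W, A e (z, e x) U W = A e' (z, e' x)
      (U.1, fderiv ℂ (fun u => e' (e.symm u)) (e x) U.2)
      (W.1, fderiv ℂ (fun u => e' (e.symm u)) (e x) W.2)
  per : ∀ e ∈ atlas (Cm h) H, ∀ l ∈ L, ∀ z, ∀ w ∈ e.target, A e (z + l, w) = A e (z, w)

theorem fd_left (z u : Cm a) (w : Cm h) :
    fderiv ℂ (fun z : Cm a => (z, w)) z u = (u, (0 : Cm h)) := by
  have h1 : HasFDerivAt (fun z : Cm a => (z, w)) ((ContinuousLinearMap.id ℂ (Cm a)).prod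
      (0 : Cm a →L[ℂ] Cm h)) z := (hasFDerivAt_id z).prodMk (hasFDerivAt_const w z)
  rw [h1.fderiv]
  rfl

/-- a function which does not depend on `z` -/
theorem fd_indep {f : Cm a × Cm h → ℂ} {z : Cm a} {w : Cm h} (hf : AnalyticAt ℂ f (z, w))
    (hc : ∀ z', f (z', w) = f (z, w)) (u : Cm a) : fderiv ℂ f (z, w) (u, 0) = 0 := by
  have h1 : HasFDerivAt (fun z' : Cm a => f (z', w))
      ((fderiv ℂ f (z, w)).comp (fderiv ℂ (fun z : Cm a => (z, w)) z)) z :=
    HasFDerivAt.comp (g := f) z hf.differentiableAt.hasFDerivAt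
      (an_mkl z w).differentiableAt.hasFDerivAt
  have h2 : (fun z' : Cm a => f (z', w)) = fun _ => f (z, w) := funext hc
  rw [h2] at h1
  have h3 := h1.unique (hasFDerivAt_const (f (z, w)) z)
  have h4 := congrArg (fun T : Cm a →L[ℂ] ℂ => T u) h3
  simpa [fd_left] using h4

variable [IsManifold 𝓘(ℂ, Cm h) ω H]

/-- The part of `H` is a constant multiple of the form of `H`. -/
theorem pf2_H {L : Set (Cm a)} {A : Chart h H → Cm a × Cm h → BL (Cm a × Cm h)}
    (hA : PF2 L A) (hL : Coco L) {sg : Chart h H → Cm h → Matrix (Fin h) (Fin h) ℂ}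
    (hne : ∃ e ∈ atlas (Cm h) H, ∃ u ∈ e.target, (sg e u).det ≠ 0)
    (huniq : ∀ s' : Chart h H → Cm h → Matrix (Fin h) (Fin h) ℂ, IsHol2 s' → ∃ c : ℂ,
      ∀ e ∈ atlas (Cm h) H, ∀ u ∈ e.target, s' e u = c • sg e u) :
    ∃ c : ℂ, ∀ e ∈ atlas (Cm h) H, ∀ z, ∀ w ∈ e.target, ∀ v v',
      A e (z, w) (0, v) (0, v') = c * mf (sg e w) v v' := by
  set P : Cm a → Chart h H → Cm h → BL (Cm h) := fun z e => pb2 (A e) (fun w => (z, w)) with hP
  have hPa : ∀ z e w v v', P z e w v v' = A e (z, w) (0, v) (0, v') := by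
    intro z e w v v'
    rw [hP]
    simp only [pb2_apply, fd_right]
  have h1 : ∀ z, IsHol2 (fun e w => mt (P z e w)) := by
    intro z
    refine hol2_of (fun e he w hw => pb2_an (hA.an e he z w hw) (an_mkr z w))
      (fun e he w hw u v => ?_) (fun e he w hw => pb2_cls (hA.an e he z w hw) (an_mkr z w)
        (hA.alt e he z w hw) (hA.closed e he z w hw)) (fun e he e' he' x hx u v => ?_)
    · rw [hPa, hPa, hA.alt e he z w hw]
    · rw [hPa, hPa, hA.change e he e' he' z x hx]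
  choose c hc using fun z => huniq _ (h1 z)
  have h2 : ∀ e ∈ atlas (Cm h) H, ∀ z, ∀ w ∈ e.target, ∀ v v',
      A e (z, w) (0, v) (0, v') = c z * mf (sg e w) v v' := by
    intro e he z w hw v v'
    rw [← hPa, ← mf_mt (P z e w), hc z e he w hw, mf_apply, mf_apply, Finset.mul_sum]
    refine Finset.sum_congr rfl fun j _ => ?_
    rw [Finset.mul_sum]
    refine Finset.sum_congr rfl fun k _ => ?_
    rw [Matrix.smul_apply, smul_eq_mul, mul_assoc]
  obtain ⟨e₀, he₀, u₀, hu₀, hdet⟩ := hne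
  by_cases h3 : ∃ v v', mf (sg e₀ u₀) v v' ≠ 0
  · obtain ⟨v, v', hv⟩ := h3
    have h4 : ∀ z z', c z = c z' := by
      intro z z'
      have h5 : A e₀ (z, u₀) (0, v) (0, v') = A e₀ (z', u₀) (0, v) (0, v') := by
        refine const_of_per (f := fun z => A e₀ (z, u₀) (0, v) (0, v')) hL (fun z => ?_)
          (fun l hl z => ?_) z z'
        · have h6 := hA.an e₀ he₀ z u₀ hu₀
          have h7 : AnalyticAt ℂ (fun q => A e₀ q (0, v) (0, v')) (z, u₀) :=
            ((ContinuousLinearMap.apply ℂ ℂ ((0, v') : Cm a × Cm h)).comp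
              (ContinuousLinearMap.apply ℂ (Cm a × Cm h →L[ℂ] ℂ)
                ((0, v) : Cm a × Cm h))).analyticAt _ |>.comp h6
          exact an_left h7
        · show A e₀ (z + l, u₀) _ _ = A e₀ (z, u₀) _ _
          rw [hA.per e₀ he₀ l hl z u₀ hu₀]
      rw [h2 e₀ he₀ z u₀ hu₀, h2 e₀ he₀ z' u₀ hu₀] at h5
      exact mul_right_cancel₀ hv h5
    refine ⟨c 0, fun e he z w hw v v' => ?_⟩
    rw [h2 e he z w hw, h4 z 0]
  · push Not at h3
    have h4 : sg e₀ u₀ = 0 := by
      rw [← mt_mf (sg e₀ u₀)]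
      ext j k
      exact h3 _ _
    have h5 : IsEmpty (Fin h) := by
      by_contra h6
      rw [not_isEmpty_iff] at h6
      rw [h4, Matrix.det_zero] at hdet
      exact hdet rfl
    refine ⟨0, fun e he z w hw v v' => ?_⟩
    have h6 : v = 0 := Subsingleton.elim _ _
    rw [h6, zero_mul]
    have h7 : ((0 : Cm a), (0 : Cm h)) = 0 := rfl
    rw [h7, map_zero, zero_apply]

theorem pf2_form [CompactSpace H] [SimplyConnectedSpace H] {L : Set (Cm a)}
    {A : Chart h H → Cm a × Cm h → BL (Cm a × Cm h)} (hA : PF2 L A) (hL : Coco L)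
    {sg : Chart h H → Cm h → Matrix (Fin h) (Fin h) ℂ}
    (hne : ∃ e ∈ atlas (Cm h) H, ∃ u ∈ e.target, (sg e u).det ≠ 0)
    (huniq : ∀ s' : Chart h H → Cm h → Matrix (Fin h) (Fin h) ℂ, IsHol2 s' → ∃ c : ℂ,
      ∀ e ∈ atlas (Cm h) H, ∀ u ∈ e.target, s' e u = c • sg e u) :
    ∃ (c : ℂ) (C : Matrix (Fin a) (Fin a) ℂ), C.transpose = -C ∧
      ∀ e ∈ atlas (Cm h) H, ∀ z, ∀ w ∈ e.target, ∀ U W,
        A e (z, w) U W = c * mf (sg e w) U.2 W.2 + mf C U.1 W.1 := by
  obtain ⟨c, hc⟩ := pf2_H hA hL hne huniq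
  have hap : ∀ e ∈ atlas (Cm h) H, ∀ z, ∀ w ∈ e.target, ∀ U W,
      AnalyticAt ℂ (fun q => A e q U W) (z, w) := fun e he z w hw U W =>
    ((ContinuousLinearMap.apply ℂ ℂ W).comp
      (ContinuousLinearMap.apply ℂ (Cm a × Cm h →L[ℂ] ℂ) U)).analyticAt _ |>.comp
      (hA.an e he z w hw)
  have hfd : ∀ e ∈ atlas (Cm h) H, ∀ z, ∀ w ∈ e.target, ∀ X U W,
      fderiv ℂ (A e) (z, w) X U W = fderiv ℂ (fun q => A e q U W) (z, w) X :=
    fun e he z w hw X U W => fd_app2 (hA.an e he z w hw).differentiableAt X U W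
  have h1 : ∀ e ∈ atlas (Cm h) H, ∀ z, ∀ w ∈ e.target, ∀ u v,
      A e (z, w) (u, 0) (0, v) = 0 := by
    intro e he z w hw u v
    have hb : ∀ e w v, ((A e (z, w) (u, 0)).comp (ContinuousLinearMap.inr ℂ (Cm a) (Cm h))) v =
        A e (z, w) (u, 0) (0, v) := fun e w v => rfl
    have hban : ∀ e ∈ atlas (Cm h) H, ∀ w ∈ e.target, AnalyticAt ℂ (fun w =>
        (A e (z, w) (u, 0)).comp (ContinuousLinearMap.inr ℂ (Cm a) (Cm h))) w := by
      intro e he w hw
      have h2 : AnalyticAt ℂ (fun q => (A e q (u, 0)).comp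
          (ContinuousLinearMap.inr ℂ (Cm a) (Cm h))) (z, w) :=
        (((ContinuousLinearMap.compL ℂ (Cm h) (Cm a × Cm h) ℂ).flip
          (ContinuousLinearMap.inr ℂ (Cm a) (Cm h))).comp
          (ContinuousLinearMap.apply ℂ (Cm a × Cm h →L[ℂ] ℂ)
            ((u, 0) : Cm a × Cm h))).analyticAt _ |>.comp (hA.an e he z w hw)
      exact an_right h2
    have hcm : Ch1 (H := H) (fun e w =>
        (A e (z, w) (u, 0)).comp (ContinuousLinearMap.inr ℂ (Cm a) (Cm h))) := by
      refine ⟨hban, fun e he w hw v v' => ?_, fun e he e' he' x hx v => ?_⟩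
      · have h3 : ∀ v v', fderiv ℂ (fun w => (A e (z, w) (u, 0)).comp
            (ContinuousLinearMap.inr ℂ (Cm a) (Cm h))) w v v' =
            fderiv ℂ (A e) (z, w) (0, v) (u, 0) (0, v') := by
          intro v v'
          rw [fd_app (hban e he w hw).differentiableAt, hfd e he z w hw]
          simp only [hb]
          have h4 : HasFDerivAt (fun w : Cm h => A e (z, w) (u, 0) (0, v'))
              ((fderiv ℂ (fun q => A e q (u, 0) (0, v')) (z, w)).comp
                (fderiv ℂ (fun w : Cm h => (z, w)) w)) w :=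
            HasFDerivAt.comp (g := fun q => A e q (u, 0) (0, v')) w
              (hap e he z w hw _ _).differentiableAt.hasFDerivAt
              (an_mkr z w).differentiableAt.hasFDerivAt
          rw [h4.fderiv, ContinuousLinearMap.comp_apply, fd_right]
        have h5 := hA.closed e he z w hw (u, 0) (0, v) (0, v')
        have h6 : fderiv ℂ (A e) (z, w) (u, 0) (0, v) (0, v') = 0 := by
          rw [hfd e he z w hw]
          refine fd_indep (hap e he z w hw _ _) (fun z' => ?_) u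
          show A e (z', w) (0, v) (0, v') = A e (z, w) (0, v) (0, v')
          rw [hc e he z' w hw, hc e he z w hw]
        have h7 : fderiv ℂ (A e) (z, w) (0, v) (0, v') (u, 0) =
            -fderiv ℂ (A e) (z, w) (0, v) (u, 0) (0, v') := by
          rw [hfd e he z w hw, hfd e he z w hw]
          have h8 : (fun q => A e q (0, v') (u, 0)) =ᶠ[𝓝 (z, w)]
              fun q => -A e q (u, 0) (0, v') := by
            have h9 : univ ×ˢ e.target ∈ 𝓝 (z, w) :=
              (isOpen_univ.prod e.open_target).mem_nhds ⟨mem_univ _, hw⟩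
            filter_upwards [h9] with q hq
            exact hA.alt e he q.1 q.2 hq.2 _ _
          rw [h8.fderiv_eq, fderiv_fun_neg]
          rfl
        rw [h3, h3]
        rw [h6, h7] at h5
        linear_combination -h5
      · rw [hb, hb, hA.change e he e' he' z x hx]
        simp
    have h2 := ch1_zero hcm he hw
    rw [← hb e w v]
    exact congrArg (fun T : Cm h →L[ℂ] ℂ => T v) h2
  have h2 : ∀ i j : Fin a, ∃ k, ∀ e ∈ atlas (Cm h) H, ∀ z, ∀ w ∈ e.target,
      A e (z, w) (Pi.single i 1, 0) (Pi.single j 1, 0) = k := by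
    intro i j
    have hF : Fn (H := H) L fun e q => A e q (Pi.single i 1, 0) (Pi.single j 1, 0) := by
      refine ⟨fun e he z w hw => hap e he z w hw _ _, fun e he e' he' z x hx => ?_,
        fun e he l hl z w hw => ?_⟩
      · have := hA.change e he e' he' z x hx (Pi.single i 1, 0) (Pi.single j 1, 0)
        simpa using this
      · show A e (z + l, w) _ _ = A e (z, w) _ _
        rw [hA.per e he l hl z w hw]
    exact hF.const hL
  choose C hC using h2
  have hCm : ∀ e ∈ atlas (Cm h) H, ∀ z, ∀ w ∈ e.target, ∀ u u',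
      A e (z, w) (u, 0) (u', 0) = mf (Matrix.of C) u u' := by
    intro e he z w hw u u'
    have h3 : mt (((A e (z, w)).comp (ContinuousLinearMap.inl ℂ (Cm a) (Cm h))).flip.comp
        (ContinuousLinearMap.inl ℂ (Cm a) (Cm h))).flip = Matrix.of C := by
      ext i j
      exact hC i j e he z w hw
    rw [← h3, mf_mt]
    rfl
  refine ⟨c, Matrix.of C, ?_, fun e he z w hw U W => ?_⟩
  · ext i j
    obtain ⟨x⟩ := (inferInstance : Nonempty H)
    have he := chart_mem_atlas (Cm h) x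
    have hw := (chartAt (Cm h) x).map_source (mem_chart_source (Cm h) x)
    show C j i = -C i j
    rw [← hC j i _ he 0 _ hw, ← hC i j _ he 0 _ hw, hA.alt _ he 0 _ hw]
  · have h3 : ∀ U : Cm a × Cm h, U = (U.1, 0) + (0, U.2) := fun U => by simp
    conv_lhs => rw [h3 U, h3 W]
    simp only [map_add, add_apply]
    rw [h1 e he z w hw, hCm e he z w hw,
      hc e he z w hw, hA.alt e he z w hw (0, U.2) (W.1, 0), h1 e he z w hw]
    ring

end

end Vale.Agent.P281.H702.HKT
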