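import Vale.Agent.P281.H702.Z.Br2
import Vale.Agent.P211.HK.LocSys
import Mathlib.Geometry.Manifold.Complex
import Mathlib.Analysis.Complex.Liouville
import Mathlib.MeasureTheory.Integral.CurveIntegral.Poincare

/-!
# P281, project T-HKT (helper702): closed holomorphic forms on `ℂ^a × H`, periodic in `ℂ^a`
-/

open Set Filter Metric Vale.Agent.P272.K
open scoped Topology ContDiff Manifold

noncomputable section

set_option maxSynthPendingDepth 3

namespace Vale.Agent.P281.H702.HKT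

open Vale.Agent.P281.H64.TK (jac dd)
open Vale.Agent.P281.H83.HK (IsHol2)
open Vale.Agent.P281.H702.HK (mf mf_apply mf_alt mf_analytic mf_fd mf_closed B2)
open Vale.Agent.P281.H702.Z

/-! ### Liouville -/

/-- A cocompact set of translations. -/
def Coco {a : ℕ} (L : Set (Cm a)) : Prop :=
  ∃ C : Set (Cm a), IsCompact C ∧ ∀ z, ∃ l ∈ L, z + l ∈ C

theorem const_of_per {a : ℕ} {L : Set (Cm a)} (hL : Coco L) {f : Cm a → ℂ}
    (hf : ∀ z, AnalyticAt ℂ f z) (hp : ∀ l ∈ L, ∀ z, f (z + l) = f z) (z z' : Cm a) :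
    f z = f z' := by
  obtain ⟨C, hC, hCL⟩ := hL
  have hd : Differentiable ℂ f := fun z => (hf z).differentiableAt
  refine hd.apply_eq_apply_of_bounded ?_ z z'
  refine (hC.image hd.continuous).isBounded.subset ?_
  rintro _ ⟨y, rfl⟩
  obtain ⟨l, hl, hy⟩ := hCL y
  exact ⟨y + l, hy, hp l hl y⟩

/-! ### Closed 1-forms on a compact simply connected manifold -/

section H1
variable {h : ℕ} {H : Type} [TopologicalSpace H] [ChartedSpace (Cm h) H]
  [IsManifold 𝓘(ℂ, Cm h) ω H]

theorem dif_eq {e : Chart h H} (he : e ∈ atlas (Cm h) H) {x : H} (hx : x ∈ e.source) {g : H → ℂ}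
    (hg : J.HolAt (Cm h) g x) :
    J.dif (Cm h) g x = (fderiv ℂ (fun v => g (e.symm v)) (e x)).comp (Dc e x) := by
  have hg' : J.HolAt (Cm h) g (e.symm (e x)) := by rwa [e.left_inv hx]
  rw [dif_Di he (e.map_source hx) hg', e.left_inv hx]
  refine ContinuousLinearMap.ext fun v => ?_
  show J.dif (Cm h) g x v = J.dif (Cm h) g x (Di e (e x) (Dc e x v))
  have h1 : Di e (e x) (Dc e x v) = v :=
    congrArg (fun L : Cm h →L[ℂ] Cm h => L v) (Di_Dc he hx)
  rw [h1]

/-- `s` is a primitive of `η` near `p`. -/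
def Par (η : H → (Cm h →L[ℂ] ℂ)) (p : H) (s : H → ℂ) : Prop :=
  ∀ᶠ q in 𝓝 p, J.HolAt (Cm h) s q ∧ η q = J.dif (Cm h) s q

theorem par_sub {η : H → (Cm h →L[ℂ] ℂ)} {p : H} {s s' : H → ℂ} (hs : Par η p s)
    (hs' : Par η p s') : ∀ᶠ q in 𝓝 p, s q - s' q = s p - s' p := by
  set e := chartAt (Cm h) p with he
  have hea : e ∈ atlas (Cm h) H := chart_mem_atlas _ _
  have hp : p ∈ e.source := mem_chart_source _ _
  have hc : Tendsto e.symm (𝓝 (e p)) (𝓝 p) := by
    have := e.continuousAt_symm (e.map_source hp)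
    rwa [ContinuousAt, e.left_inv hp] at this
  have h1 : ∀ᶠ v in 𝓝 (e p), v ∈ e.target ∧ (J.HolAt (Cm h) s (e.symm v) ∧
      η (e.symm v) = J.dif (Cm h) s (e.symm v)) ∧ J.HolAt (Cm h) s' (e.symm v) ∧
      η (e.symm v) = J.dif (Cm h) s' (e.symm v) :=
    (e.open_target.eventually_mem (e.map_source hp)).and
      ((hc.eventually hs).and (hc.eventually hs'))
  obtain ⟨r, hr, hb⟩ := Metric.eventually_nhds_iff_ball.1 h1
  have hd : ∀ v ∈ ball (e p) r, HasFDerivAt (fun v => s (e.symm v) - s' (e.symm v))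
      (0 : Cm h →L[ℂ] ℂ) v := by
    intro v hv
    obtain ⟨k1, ⟨k2, k3⟩, k4, k5⟩ := hb v hv
    have e1 := (an_of hea k1 k2).differentiableAt.hasFDerivAt
    have e2 := (an_of hea k1 k4).differentiableAt.hasFDerivAt
    rw [dif_Di hea k1 k2, ← k3] at e1
    rw [dif_Di hea k1 k4, ← k5] at e2
    exact (e1.sub e2).congr_fderiv (sub_self _)
  have hcst : ∀ v ∈ ball (e p) r, s (e.symm v) - s' (e.symm v) = s p - s' p := by
    intro v hv
    have h2 := isOpen_ball.is_const_of_fderiv_eq_zero (𝕜 := ℂ)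
      (convex_ball (e p) r).isPreconnected
      (fun u hu => (hd u hu).differentiableAt.differentiableWithinAt)
      (fun u hu => (hd u hu).fderiv) hv (mem_ball_self hr)
    rw [e.left_inv hp] at h2
    exact h2
  filter_upwards [e.open_source.mem_nhds hp,
    (e.continuousAt hp).eventually (ball_mem_nhds (e p) hr)] with q hq hqb
  have := hcst (e q) hqb
  rwa [e.left_inv hq] at this

theorem locSys {η : H → (Cm h →L[ℂ] ℂ)}
    (hη : ∀ x, ∃ ψ : H → ℂ, Par η x ψ) :
    Vale.Agent.P211.HK.LocSys (X := H) (F := fun _ => ℂ) (Par η) where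
  opn x s hs := eventually_eventually_nhds.2 hs
  uniq x s s' hs hs' h := by
    filter_upwards [par_sub hs hs'] with q hq
    rw [h, sub_self] at hq
    exact sub_eq_zero.1 hq
  clo x s s' hs hs' h := by
    obtain ⟨q, hq, hq'⟩ := (h.and_eventually (par_sub hs hs')).exists
    rw [hq, sub_self] at hq'
    exact (sub_eq_zero.1 hq'.symm)
  loc x s s' hs h := by
    filter_upwards [hs, eventually_eventually_nhds.2 h] with q k1 k2
    refine ⟨k1.1.congr_of_eventuallyEq (k2.mono fun y hy => hy.symm), ?_⟩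
    rw [k1.2]
    exact (Filter.EventuallyEq.mfderiv_eq k2)
  ext x := by
    obtain ⟨ψ, hψ⟩ := hη x
    refine ⟨{q | Par η q ψ}, eventually_eventually_nhds.2 hψ, fun q _ v => ?_⟩
    refine ⟨fun q' => ψ q' + (v - ψ q), by ring, fun q' hq' => ?_⟩
    filter_upwards [(hq' : Par η q' ψ)] with y hy
    have h1 : J.HolAt (Cm h) (fun q' => ψ q' + (v - ψ q)) y :=
      ContMDiffAt.add hy.1 contMDiffAt_const
    refine ⟨h1, ?_⟩
    rw [hy.2, dif_eq (chart_mem_atlas (Cm h) y) (mem_chart_source _ _) hy.1,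
      dif_eq (chart_mem_atlas (Cm h) y) (mem_chart_source _ _) h1, fderiv_add_const]

theorem closed1_zero [CompactSpace H] [SimplyConnectedSpace H] {η : H → (Cm h →L[ℂ] ℂ)}
    (hη : ∀ x, ∃ ψ : H → ℂ, Par η x ψ) (x : H) : η x = 0 := by
  have : LocallyPathConnectedSpace H := ChartedSpace.locallyPathConnectedSpace (Cm h) H
  obtain ⟨s, ⟨-, hs⟩, -⟩ := (locSys hη).existsUnique x (0 : ℂ)
  have hmd : MDifferentiable 𝓘(ℂ, Cm h) 𝓘(ℂ, ℂ) s := fun y =>
    ContMDiffAt.mdifferentiableAt ((hs y).self_of_nhds).1 (by simp)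
  obtain ⟨v, hv⟩ := hmd.exists_eq_const_of_compactSpace
  have h1 := ((hs x).self_of_nhds).2
  rw [h1, hv]
  exact mfderiv_const

/-- A closed holomorphic 1-form, in the charts. -/
structure Ch1 (b : Chart h H → Cm h → (Cm h →L[ℂ] ℂ)) : Prop where
  an : ∀ e ∈ atlas (Cm h) H, ∀ w ∈ e.target, AnalyticAt ℂ (b e) w
  closed : ∀ e ∈ atlas (Cm h) H, ∀ w ∈ e.target, ∀ u v,
    fderiv ℂ (b e) w u v = fderiv ℂ (b e) w v u
  change : ∀ e ∈ atlas (Cm h) H, ∀ e' ∈ atlas (Cm h) H, ∀ x ∈ e.source ∩ e'.source, ∀ v,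
    b e (e x) v = b e' (e' x) (fderiv ℂ (fun u => e' (e.symm u)) (e x) v)

theorem ch1_zero [CompactSpace H] [SimplyConnectedSpace H]
    {b : Chart h H → Cm h → (Cm h →L[ℂ] ℂ)} (hb : Ch1 b) {e : Chart h H}
    (he : e ∈ atlas (Cm h) H) {w : Cm h} (hw : w ∈ e.target) : b e w = 0 := by
  set η : H → (Cm h →L[ℂ] ℂ) := fun x => b (chartAt (Cm h) x) (chartAt (Cm h) x x) with hη
  have key : ∀ e ∈ atlas (Cm h) H, ∀ x ∈ e.source, η x = (b e (e x)).comp (Dc e x) := by
    intro e he x hx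
    set e₁ := chartAt (Cm h) x with he₁
    have he₁a : e₁ ∈ atlas (Cm h) H := chart_mem_atlas _ _
    have hx₁ : x ∈ e₁.source := mem_chart_source _ _
    have hz' : e₁.symm (e₁ x) ∈ e.source := by rw [e₁.left_inv hx₁]; exact hx
    have hfd := fd_change he₁a he (e₁.map_source hx₁) hz'
    rw [e₁.left_inv hx₁] at hfd
    refine ContinuousLinearMap.ext fun v => ?_
    have h2 : Di e₁ (e₁ x) v = v := by
      have h3 := congrArg (fun L : Cm h →L[ℂ] Cm h => L v) (Di_Dc he₁a hx₁)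
      rw [Dc_chartAt x] at h3
      exact h3
    show b e₁ (e₁ x) v = b e (e x) (Dc e x v)
    rw [hb.change e₁ he₁a e he x ⟨hx₁, hx⟩, hfd]
    show b e (e x) (Dc e x (Di e₁ (e₁ x) v)) = _
    rw [h2]
  have hpar : ∀ x, ∃ ψ : H → ℂ, Par η x ψ := by
    intro x
    set e := chartAt (Cm h) x with he
    have hea : e ∈ atlas (Cm h) H := chart_mem_atlas _ _
    have hx : x ∈ e.source := mem_chart_source _ _
    obtain ⟨r, hr, hrt⟩ := Metric.isOpen_iff.1 e.open_target (e x) (e.map_source hx)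
    have han : ∀ w ∈ ball (e x) r, HasFDerivAt (𝕜 := ℝ) (b e)
        ((fderiv ℂ (b e) w).restrictScalars ℝ) w := fun w hw =>
      (hb.an e hea w (hrt hw)).differentiableAt.hasFDerivAt.restrictScalars ℝ
    have hdr : DifferentiableOn ℝ (b e) (ball (e x) r) :=
      fun w hw => (han w hw).differentiableAt.differentiableWithinAt
    obtain ⟨f, hf⟩ := (convex_ball (e x) r).exists_forall_hasFDerivAt_of_fderiv_symmetric
      isOpen_ball hdr
      (fun w hw u v => by
        rw [(han w hw).fderiv]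
        exact hb.closed e hea w (hrt hw) u v)
    have hfa : ∀ w ∈ ball (e x) r, AnalyticAt ℂ f w := fun w hw =>
      MF.analyticAt_of_differentiableOn isOpen_ball
        (fun w hw => (hf w hw).differentiableAt.differentiableWithinAt) hw
    refine ⟨fun y => f (e y), ?_⟩
    filter_upwards [e.open_source.mem_nhds hx,
      (e.continuousAt hx).eventually (ball_mem_nhds (e x) hr)] with y hy hyb
    refine ⟨holAt_of hea hy (hfa _ hyb), ?_⟩
    rw [key e hea y hy, dif_Dc hea hy (hfa _ hyb), (hf _ hyb).fderiv]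
  have h0 := closed1_zero hpar (e.symm w)
  rw [key e he _ (e.map_target hw), e.right_inv hw] at h0
  refine ContinuousLinearMap.ext fun v => ?_
  have h1 : Dc e (e.symm w) (Di e w v) = v :=
    congrArg (fun L : Cm h →L[ℂ] Cm h => L v) (Dc_Di he hw)
  have h2 := congrArg (fun L : Cm h →L[ℂ] ℂ => L (Di e w v)) h0
  have h3 : b e w (Dc e (e.symm w) (Di e w v)) = 0 := h2
  rw [h1] at h3
  rw [h3]
  rfl

end H1

end Vale.Agent.P281.H702.HKT
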