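import Vale.Agent.P281.H702.HKT.Har
import Vale.Agent.P281.H702.HKT.Gen
import Vale.Agent.P281.H702.Z.Br3

/-!
# P281, project T-HKT, class C (helper702): sections of `ψ : E → ℂ^a × H` off the small set
-/

open Set Filter Metric Vale.Agent.P281 Vale.Agent.P272.K
open scoped Topology ContDiff Manifold

noncomputable section

set_option maxSynthPendingDepth 3

namespace Vale.Agent.P281.H702.HKT

open Vale.Agent.P281.H64.TK (jac dd Sheets)
open Vale.Agent.P281.H191.RC (Sml2 PsiT)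
open Vale.Agent.P281.H399.QT (Qs One1 pj quo pj_smul pj_eq)
open Vale.Agent.P281.H702.Z

section
variable {d a h : ℕ} {E K H : Type} [TopologicalSpace E] [Group K] [MulAction K E]
  [ContinuousConstSMul K E] [TopologicalSpace H] [ChartedSpace (Cm h) H] {S : Sheets d E K}
  {ψ : E → Cm a × H} {l : K → Cm a} {A : Set (Cm a × H)}

/-- `ψ` in the sheet `j` and the chart `e`. -/
def kp (S : Sheets d E K) (ψ : E → Cm a × H) (e : Chart h H) (j : Fin S.N) (v : Cm d) :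
    Cm a × Cm h := ((ψ (S.σ j v)).1, e (ψ (S.σ j v)).2)

open Classical in
/-- The inverse of `ψ`, off `A`, with values in `E / K`. -/
def PsM (ψ : E → Cm a × H) (A : Set (Cm a × H)) (m₀ : Qs K E) (q : Cm a × H) : Qs K E :=
  if hq : q ∉ A ∧ ∃ e, ψ e = q then pj K hq.2.choose else m₀

variable {m₀ : Qs K E}

omit [ContinuousConstSMul K E] in
theorem psM_eq (hP : PsiT (h := h) S ψ l A) {x : E} (hx : ψ x ∉ A) : PsM ψ A m₀ (ψ x) = pj K x := by
  have h1 : ψ x ∉ A ∧ ∃ e, ψ e = ψ x := ⟨hx, x, rfl⟩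
  unfold PsM
  rw [dif_pos h1]
  exact congrArg _ (hP.inj _ _ h1.2.choose_spec (by rw [h1.2.choose_spec]; exact hx))

omit [ContinuousConstSMul K E] in
theorem psM_per (hP : PsiT (h := h) S ψ l A) (k : K) : l k ∈ Per (PsM ψ A m₀) := by
  intro r
  by_cases hr : r ∈ A
  · have h1 : (r.1 + l k, r.2) ∈ A := (hP.inv k r).2 hr
    unfold PsM
    rw [dif_neg (fun h => h.1 h1), dif_neg (fun h => h.1 hr)]
  · obtain ⟨x, rfl⟩ := hP.surj r
    have h1 : ψ (k • x) = ((ψ x).1 + l k, (ψ x).2) := hP.eqv k x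
    have h2 : ψ (k • x) ∉ A := by
      rw [h1]
      exact fun h3 => hr ((hP.inv k _).1 h3)
    rw [← h1, psM_eq hP h2, psM_eq hP hr, pj_smul]

omit [TopologicalSpace E] [ContinuousConstSMul K E] [TopologicalSpace H]
  [ChartedSpace (Cm h) H] in
theorem per_neg {Ψ : Cm a × H → Qs K E} {m : Cm a} (hm : m ∈ Per Ψ) : -m ∈ Per Ψ := by
  intro r
  have h1 := hm (r.1 + -m, r.2)
  simp only [neg_add_cancel_right] at h1
  exact h1.symm

omit [ContinuousConstSMul K E] in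
theorem sh_cont (S : Sheets d E K) (j : Fin S.N) {z : Cm d} (hz : z ∈ ball (0 : Cm d) 3) :
    ContinuousAt (S.σ j) z := (S.map_nhds j z hz).le

omit [ContinuousConstSMul K E] in
theorem psi_cont (hP : PsiT (h := h) S ψ l A) {j : Fin S.N} {z : Cm d} (hz : z ∈ ball (0 : Cm d) 3) :
    ContinuousAt (fun v => ψ (S.σ j v)) z :=
  ContinuousAt.comp (g := ψ) hP.cont.continuousAt (S.map_nhds j z hz).le

omit [ContinuousConstSMul K E] in
theorem off_ev (hP : PsiT (h := h) S ψ l A) {j : Fin S.N} {z : Cm d} (hz : z ∈ ball (0 : Cm d) 3)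
    (hA : ψ (S.σ j z) ∉ A) : ∀ᶠ v in 𝓝 z, ψ (S.σ j v) ∉ A :=
  (psi_cont hP hz).eventually (hP.small.closed.isOpen_compl.mem_nhds hA)

omit [ContinuousConstSMul K E] in
theorem src_ev (hP : PsiT (h := h) S ψ l A) {j : Fin S.N} {z : Cm d} (hz : z ∈ ball (0 : Cm d) 3)
    {e : Chart h H} (hs : (ψ (S.σ j z)).2 ∈ e.source) :
    ∀ᶠ v in 𝓝 z, (ψ (S.σ j v)).2 ∈ e.source :=
  ((psi_cont hP hz).snd).eventually (e.open_source.mem_nhds hs)

/-- `ψ` is a local lift, off `A`. -/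
theorem lift_off (hP : PsiT (h := h) S ψ l A) {j : Fin S.N} {z : Cm d} (hz : z ∈ ball (0 : Cm d) 3)
    {e : Chart h H} (he : e ∈ atlas (Cm h) H) (hs : (ψ (S.σ j z)).2 ∈ e.source)
    (hA : ψ (S.σ j z) ∉ A) : Lift (quo S) (PsM ψ A m₀) j z e (kp S ψ e j) where
  mem := he
  an := hP.hol j z hz e he hs
  tgt := e.map_source hs
  eq := by
    filter_upwards [off_ev hP hz hA, src_ev hP hz hs] with v k1 k2
    show PsM ψ A m₀ ((ψ (S.σ j v)).1, e.symm (e (ψ (S.σ j v)).2)) = pj K (S.σ j v)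
    rw [e.left_inv k2]
    exact psM_eq hP k1

/-- A section in the same sheet, off `A`. -/
theorem sec_at (hd : d = a + h) (hP : PsiT (h := h) S ψ l A) {j : Fin S.N} {z : Cm d}
    (hz : z ∈ ball (0 : Cm d) 3) {e : Chart h H} (he : e ∈ atlas (Cm h) H)
    (hs : (ψ (S.σ j z)).2 ∈ e.source) (hA : ψ (S.σ j z) ∉ A) :
    ∃ T, Sec (quo S) (PsM ψ A m₀) e (kp S ψ e j z) j T ∧ T (kp S ψ e j z) = z := by
  have hfr : Module.finrank ℂ (Cm d) = Module.finrank ℂ (Cm a × Cm h) := by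
    simp [hd]
  have hκ : AnalyticAt ℂ (kp S ψ e j) z := hP.hol j z hz e he hs
  have hnd : Function.Injective (fderiv ℂ (kp S ψ e j) z) := hP.nd j z hz e he hs hA
  obtain ⟨T, hT, hTz, hTr⟩ := exists_inv hfr hκ.contDiffAt
    (fun u hu => hnd (by rw [hu, map_zero]))
  have hTt : Tendsto T (𝓝 (kp S ψ e j z)) (𝓝 z) := by
    have := hT.continuousAt
    rwa [ContinuousAt, hTz] at this
  refine ⟨T, ⟨he, e.map_source hs, hT.analyticAt, by rw [hTz]; exact hz, ?_⟩, hTz⟩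
  filter_upwards [hTr, hTt.eventually (off_ev hP hz hA), hTt.eventually (src_ev hP hz hs)]
    with r k1 k2 k3
  have k4 : (ψ (S.σ j (T r))).1 = r.1 := congrArg Prod.fst k1
  have k5 : e (ψ (S.σ j (T r))).2 = r.2 := congrArg Prod.snd k1
  have k6 : e.symm r.2 = (ψ (S.σ j (T r))).2 := by rw [← k5, e.left_inv k3]
  rw [k6, ← k4]
  exact psM_eq hP k2

/-- Sections exist off `A`. -/
theorem sec_off [IsManifold 𝓘(ℂ, Cm h) ω H] (hd : d = a + h) (hP : PsiT (h := h) S ψ l A) {e : Chart h H}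
    (he : e ∈ atlas (Cm h) H) {r : Cm a × Cm h} (hr : r ∈ Dom a e) (hrA : r ∈ Off A e) :
    ∃ j θ, Sec (quo S) (PsM ψ A m₀) e r j θ := by
  obtain ⟨x, hx⟩ := hP.surj (r.1, e.symm r.2)
  obtain ⟨γ, j, z, hz, hσ⟩ := S.cover x
  have hz' : z ∈ ball (0 : Cm d) 3 := by
    rw [mem_ball_zero_iff]
    linarith
  have h1 : ((ψ (S.σ j z)).1 + l γ, (ψ (S.σ j z)).2) = (r.1, e.symm r.2) := by
    rw [← hP.eqv, hσ, hx]
  have h2 : (ψ (S.σ j z)).1 + l γ = r.1 := congrArg Prod.fst h1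
  have h3 : (ψ (S.σ j z)).2 = e.symm r.2 := congrArg Prod.snd h1
  have hs : (ψ (S.σ j z)).2 ∈ e.source := by
    rw [h3]
    exact e.map_target hr
  have hA : ψ (S.σ j z) ∉ A := by
    intro h4
    apply hrA
    show (r.1, e.symm r.2) ∈ A
    rw [← h1]
    exact (hP.inv γ _).2 h4
  obtain ⟨T, hT, -⟩ := sec_at (m₀ := m₀) hd hP hz' he hs hA
  have h5 : kp S ψ e j z = tr e e (-l γ) r := by
    refine Prod.ext ?_ ?_
    · show (ψ (S.σ j z)).1 = r.1 + -l γ
      rw [← h2]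
      abel
    · show e (ψ (S.σ j z)).2 = e (e.symm r.2)
      rw [h3]
  rw [h5] at hT
  exact ⟨j, _, hT.trans he hr (e.map_target hr) (per_neg (psM_per hP γ))⟩

/-- The periods given by `K`. -/
def LK (l : K → Cm a) : Set (Cm a) := Set.range l

variable [IsManifold 𝓘(ℂ, Cm h) ω H]

theorem asc1_pfA (hd : d = a + h) (hP : PsiT (h := h) S ψ l A)
    {b : Fin (quo S).N → Cm d → (Cm d →L[ℂ] ℂ)} (hb : FS1 (quo S) b) :
    PF1A (H := H) (LK l) A (asc1 (h := h) (quo S) (PsM ψ A m₀) b) where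
  an e he r hr hrA := by
    obtain ⟨j, θ, hθ⟩ := sec_off (m₀ := m₀) hd hP he hr hrA
    exact (pb1_an (hb.an j _ hθ.bal) hθ.an).congr (asc1_ev hb hθ).symm
  closed e he r hr hrA := by
    obtain ⟨j, θ, hθ⟩ := sec_off (m₀ := m₀) hd hP he hr hrA
    exact (pb1_cls (hb.an j _ hθ.bal) hθ.an (hb.cls j _ hθ.bal)).congr (asc1_ev hb hθ)
  change e he e' he' z x hx hxA U := by
    have h0 : tr e e' 0 (z, e x) = (z, e' x) := by
      simp only [tr, add_zero, e.left_inv hx.1]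
    have h1 : (z, e' x) ∈ Off A e' := by
      show (z, e'.symm (e' x)) ∉ A
      rwa [e'.left_inv hx.2]
    obtain ⟨j, θ, hθ⟩ := sec_off (m₀ := m₀) hd hP he' (r := (z, e' x)) (e'.map_source hx.2) h1
    have hθ' := hθ
    rw [← h0] at hθ'
    have h2 := hθ'.trans he (r := (z, e x)) (e.map_source hx.1)
      (by rw [e.left_inv hx.1]; exact hx.2) (zero_per)
    rw [asc1_eq hb hθ, asc1_eq hb h2, sec_tr_fd he (r := (z, e x)) (e.map_source hx.1)
      (by rw [e.left_inv hx.1]; exact hx.2) hθ', h0]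
  per e he m hm r hr hrA := by
    obtain ⟨k, rfl⟩ := hm
    have h0 : tr e e (l k) r = (r.1 + l k, r.2) := by
      simp only [tr, e.right_inv hr]
    have h1 : (r.1 + l k, r.2) ∈ Off A e := fun h2 => hrA ((hP.inv k _).1 h2)
    obtain ⟨j, θ, hθ⟩ := sec_off (m₀ := m₀) hd hP he (r := (r.1 + l k, r.2)) hr h1
    have hθ' := hθ
    rw [← h0] at hθ'
    have h2 := hθ'.trans he hr (e.map_target hr) (psM_per hP k)
    refine ContinuousLinearMap.ext fun U => ?_
    rw [asc1_eq hb hθ, asc1_eq hb h2, sec_tr_fd he hr (e.map_target hr) hθ', fd_self hr, h0]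

theorem asc2_pfA (hd : d = a + h) (hP : PsiT (h := h) S ψ l A)
    {b : Fin (quo S).N → Cm d → BL (Cm d)} (hb : FS2 (quo S) b) :
    PF2A (H := H) (LK l) A (asc2 (h := h) (quo S) (PsM ψ A m₀) b) where
  an e he r hr hrA := by
    obtain ⟨j, θ, hθ⟩ := sec_off (m₀ := m₀) hd hP he hr hrA
    exact (pb2_an (hb.an j _ hθ.bal) hθ.an).congr (asc2_ev hb hθ).symm
  alt e he r hr hrA U W := by
    obtain ⟨j, θ, hθ⟩ := sec_off (m₀ := m₀) hd hP he hr hrA
    rw [asc2_eq hb hθ, asc2_eq hb hθ, hb.alt j _ hθ.bal]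
  closed e he r hr hrA := by
    obtain ⟨j, θ, hθ⟩ := sec_off (m₀ := m₀) hd hP he hr hrA
    exact (pb2_cls (hb.an j _ hθ.bal) hθ.an (hb.alt j _ hθ.bal) (hb.cls j _ hθ.bal)).congr
      (asc2_ev hb hθ)
  change e he e' he' z x hx hxA U W := by
    have h0 : tr e e' 0 (z, e x) = (z, e' x) := by
      simp only [tr, add_zero, e.left_inv hx.1]
    have h1 : (z, e' x) ∈ Off A e' := by
      show (z, e'.symm (e' x)) ∉ A
      rwa [e'.left_inv hx.2]
    obtain ⟨j, θ, hθ⟩ := sec_off (m₀ := m₀) hd hP he' (r := (z, e' x)) (e'.map_source hx.2) h1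
    have hθ' := hθ
    rw [← h0] at hθ'
    have h2 := hθ'.trans he (r := (z, e x)) (e.map_source hx.1)
      (by rw [e.left_inv hx.1]; exact hx.2) (zero_per)
    rw [asc2_eq hb hθ, asc2_eq hb h2, sec_tr_fd he (r := (z, e x)) (e.map_source hx.1)
      (by rw [e.left_inv hx.1]; exact hx.2) hθ', sec_tr_fd he (r := (z, e x)) (e.map_source hx.1)
      (by rw [e.left_inv hx.1]; exact hx.2) hθ', h0]
  per e he m hm r hr hrA := by
    obtain ⟨k, rfl⟩ := hm
    have h0 : tr e e (l k) r = (r.1 + l k, r.2) := by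
      simp only [tr, e.right_inv hr]
    have h1 : (r.1 + l k, r.2) ∈ Off A e := fun h2 => hrA ((hP.inv k _).1 h2)
    obtain ⟨j, θ, hθ⟩ := sec_off (m₀ := m₀) hd hP he (r := (r.1 + l k, r.2)) hr h1
    have hθ' := hθ
    rw [← h0] at hθ'
    have h2 := hθ'.trans he hr (e.map_target hr) (psM_per hP k)
    refine ContinuousLinearMap.ext fun U => ContinuousLinearMap.ext fun W => ?_
    rw [asc2_eq hb hθ, asc2_eq hb h2, sec_tr_fd he hr (e.map_target hr) hθ',
      sec_tr_fd he hr (e.map_target hr) hθ', fd_self hr, fd_self hr, h0]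

end

end Vale.Agent.P281.H702.HKT
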